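import Mathlib

/-!
# Fourier uniqueness and positivity of convolutions of densities on the circle
-/

namespace Vale.Agent.P130

open MeasureTheory Filter Set
open scoped Topology ENNReal BoundedContinuousFunction

noncomputable section

/-- The circle `ℝ / ℤ`. -/
abbrev 𝕋 := AddCircle (1 : ℝ)

/-- Haar probability measure on the circle. -/
abbrev ν : Measure 𝕋 := AddCircle.haarAddCircle

instance : ν.IsAddHaarMeasure := by unfold ν AddCircle.haarAddCircle; infer_instance

/-- The character of degree `n`. -/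
abbrev e (n : ℤ) : C(𝕋, ℂ) := fourier n

theorem norm_e (n : ℤ) (x : 𝕋) : ‖e n x‖ = 1 := by
  rw [fourier_apply]; exact Circle.norm_coe _

theorem e_add (n : ℤ) (x y : 𝕋) : e n (x + y) = e n x * e n y := by
  rw [fourier_apply, fourier_apply, fourier_apply, zsmul_add, AddCircle.toCircle_add, Circle.coe_mul]

theorem integrable_e_mul {D : 𝕋 → ℂ} (hD : Integrable D ν) (φ : C(𝕋, ℂ)) :
    Integrable (fun x => φ x * D x) ν :=
  hD.bdd_mul φ.continuous.aestronglyMeasurable (Eventually.of_forall fun x => φ.norm_coe_le_norm x)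

/-- Pairing a continuous function with an integrable one. -/
def pairing {D : 𝕋 → ℂ} (hD : Integrable D ν) : C(𝕋, ℂ) →L[ℂ] ℂ :=
  LinearMap.mkContinuous
    { toFun := fun φ => ∫ x, φ x * D x ∂ν
      map_add' := fun φ ψ => by
        simp only [ContinuousMap.add_apply, add_mul]
        exact integral_add (integrable_e_mul hD φ) (integrable_e_mul hD ψ)
      map_smul' := fun c φ => by
        simp only [ContinuousMap.smul_apply, smul_eq_mul, mul_assoc, RingHom.id_apply]
        exact integral_const_mul c _ }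
    (∫ x, ‖D x‖ ∂ν)
    fun φ => by
      show ‖∫ x, φ x * D x ∂ν‖ ≤ (∫ x, ‖D x‖ ∂ν) * ‖φ‖
      refine (norm_integral_le_integral_norm _).trans ?_
      rw [← integral_mul_const]
      refine integral_mono (integrable_e_mul hD φ).norm (hD.norm.mul_const _) fun x => ?_
      rw [norm_mul, mul_comm]
      gcongr
      exact φ.norm_coe_le_norm x

theorem pairing_apply {D : 𝕋 → ℂ} (hD : Integrable D ν) (φ : C(𝕋, ℂ)) :
    pairing hD φ = ∫ x, φ x * D x ∂ν := rfl

/-- Two continuous functionals agreeing on all characters are equal. -/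
theorem eq_of_fourier {A B : C(𝕋, ℂ) →L[ℂ] ℂ} (h : ∀ n, A (e n) = B (e n)) : A = B := by
  refine ContinuousLinearMap.ext_on ?_ (s := range e) (by rintro _ ⟨n, rfl⟩; exact h n)
  rw [dense_iff_closure_eq, ← Submodule.topologicalClosure_coe]
  exact congrArg _ span_fourier_closure_eq_top

/-- Integrals against all continuous functions bound the integral over closed sets. -/
theorem ae_le_of_continuous {D ψ : 𝕋 → ℝ} (hD : Integrable D ν) (hψ : Integrable ψ ν)
    (h : ∀ φ : C(𝕋, ℝ), (∀ x, 0 ≤ φ x) → ∫ x, φ x * ψ x ∂ν ≤ ∫ x, φ x * D x ∂ν) :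
    ψ ≤ᵐ[ν] D := by
  have hclosed : ∀ F : Set 𝕋, IsClosed F → ∫ x in F, ψ x ∂ν ≤ ∫ x in F, D x ∂ν := by
    intro F hF
    have lim : ∀ g : 𝕋 → ℝ, Integrable g ν → Tendsto
        (fun n => ∫ x, (hF.apprSeq n x : ℝ) * g x ∂ν) atTop (𝓝 (∫ x in F, g x ∂ν)) := by
      intro g hg
      rw [← integral_indicator hF.measurableSet]
      refine tendsto_integral_of_dominated_convergence (fun x => ‖g x‖)
        (fun n => ((continuous_subtype_val.comp (hF.apprSeq n).continuous).aestronglyMeasurable).mul
          hg.aestronglyMeasurable) hg.norm (fun n => Eventually.of_forall fun x => ?_)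
        (Eventually.of_forall fun x => ?_)
      · rw [norm_mul]
        refine mul_le_of_le_one_left (norm_nonneg _) ?_
        rw [Real.norm_of_nonneg (NNReal.coe_nonneg _)]
        exact_mod_cast HasOuterApproxClosed.apprSeq_apply_le_one hF n x
      · have h1 := (tendsto_pi_nhds.1 (HasOuterApproxClosed.tendsto_apprSeq hF)) x
        have h2 : Tendsto (fun n => (hF.apprSeq n x : ℝ) * g x) atTop
            (𝓝 (((indicator F (fun _ => (1 : NNReal)) x : NNReal) : ℝ) * g x)) :=
          ((continuous_subtype_val.tendsto _).comp h1).mul_const _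
        by_cases hx : x ∈ F <;> simp [hx] at h2 ⊢ <;> exact h2
    exact le_of_tendsto_of_tendsto' (lim ψ hψ) (lim D hD) fun n =>
      h ⟨fun x => (hF.apprSeq n x : ℝ), continuous_subtype_val.comp (hF.apprSeq n).continuous⟩
        fun x => NNReal.coe_nonneg _
  by_contra hne
  have hnm : NullMeasurableSet {x | D x < ψ x} ν :=
    nullMeasurableSet_lt hD.1.aemeasurable hψ.1.aemeasurable
  have hpos : ν {x | D x < ψ x} ≠ 0 := by
    intro h0
    exact hne (ae_iff.2 (by simpa only [not_le] using h0))
  obtain ⟨t, hts, htm, hte⟩ := hnm.exists_measurable_subset_ae_eq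
  have ht0 : ν t ≠ 0 := by rwa [measure_congr hte]
  obtain ⟨F, hFt, hF, hFpos⟩ :=
    htm.exists_lt_isClosed_of_ne_top (measure_ne_top _ _) (bot_lt_iff_ne_bot.2 ht0)
  refine absurd (hclosed F hF) (not_le.2 ?_)
  rw [← sub_pos, ← integral_sub hψ.integrableOn hD.integrableOn]
  refine (setIntegral_pos_iff_support_of_nonneg_ae ?_ (hψ.sub hD).integrableOn).2 ?_
  · filter_upwards [ae_restrict_mem hF.measurableSet] with x hx
    exact sub_nonneg.2 (hts (hFt hx)).le
  · refine lt_of_lt_of_le hFpos (measure_mono fun x hx => ⟨?_, hx⟩)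
    exact (sub_pos.2 (hts (hFt hx))).ne'

/-- An integrable function with no nonzero Fourier coefficient vanishes almost everywhere. -/
theorem eq_zero_of_fourier {D : 𝕋 → ℂ} (hD : Integrable D ν)
    (h : ∀ n, ∫ x, e n x * D x ∂ν = 0) : D =ᵐ[ν] 0 := by
  have hp : pairing hD = 0 := eq_of_fourier fun n => by
    rw [pairing_apply, h n, zero_apply]
  have hφ : ∀ φ : C(𝕋, ℝ), (∫ x, φ x * (D x).re ∂ν = 0) ∧ ∫ x, φ x * (D x).im ∂ν = 0 := by
    intro φ
    let φc : C(𝕋, ℂ) := ⟨fun x => (φ x : ℂ), Complex.continuous_ofReal.comp φ.continuous⟩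
    have h0 : ∫ x, (φ x : ℂ) * D x ∂ν = 0 := by
      have := congrArg (fun L : C(𝕋, ℂ) →L[ℂ] ℂ => L φc) hp
      simpa [pairing_apply, φc] using this
    have hi : Integrable (fun x => (φ x : ℂ) * D x) ν := integrable_e_mul hD φc
    constructor
    · have := congrArg Complex.re h0
      rw [← RCLike.re_to_complex, ← integral_re hi] at this
      simpa [φc, Complex.mul_re] using this
    · have := congrArg Complex.im h0
      rw [← RCLike.im_to_complex, ← integral_im hi] at this
      simpa [φc, Complex.mul_im] using this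
  have h1 := ae_le_of_continuous (integrable_zero _ _ _) hD.re (fun φ _ => by simpa using (hφ φ).1.le)
  have h2 := ae_le_of_continuous hD.re (integrable_zero _ _ _) (fun φ _ => by simpa using (hφ φ).1.ge)
  have h3 := ae_le_of_continuous (integrable_zero _ _ _) hD.im (fun φ _ => by simpa using (hφ φ).2.le)
  have h4 := ae_le_of_continuous hD.im (integrable_zero _ _ _) (fun φ _ => by simpa using (hφ φ).2.ge)
  filter_upwards [h1, h2, h3, h4] with x a b c d
  exact Complex.ext (le_antisymm (by simpa using a) (by simpa using b))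
    (le_antisymm (by simpa using c) (by simpa using d))

/-- The convolution integral of `u` and `v`. -/
def conv (u v : 𝕋 → ℝ) (z : 𝕋) : ℝ := ∫ y, u (z - y) * v y ∂ν

/-- Fubini for a bounded product: testing the convolution against `w`. -/
theorem integral_conv {u v w : 𝕋 → ℝ} (hu : Measurable u) (hv : Measurable v) (hw : Measurable w)
    {C : ℝ} (hub : ∀ x, ‖u x‖ ≤ 1) (hvb : ∀ x, ‖v x‖ ≤ 1) (hwb : ∀ x, ‖w x‖ ≤ C) :
    ∫ z, w z * conv u v z ∂ν = ∫ y, v y * ∫ x, u x * w (x + y) ∂ν ∂ν := by
  have hint : Integrable (Function.uncurry fun z y => w z * (u (z - y) * v y)) (ν.prod ν) := by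
    refine Integrable.of_bound ?_ C (Eventually.of_forall fun q => ?_)
    · exact ((hw.comp measurable_fst).mul ((hu.comp (measurable_fst.sub measurable_snd)).mul
        (hv.comp measurable_snd))).aestronglyMeasurable
    · simp only [Function.uncurry, norm_mul]
      calc ‖w q.1‖ * (‖u (q.1 - q.2)‖ * ‖v q.2‖) ≤ C * (1 * 1) := by
            gcongr
            · exact (norm_nonneg _).trans (hwb q.1)
            · exact hwb _
            · exact hub _
            · exact hvb _
        _ = C := by ring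
  calc ∫ z, w z * conv u v z ∂ν = ∫ z, ∫ y, w z * (u (z - y) * v y) ∂ν ∂ν := by
        simp only [conv, integral_const_mul]
    _ = ∫ y, ∫ z, w z * (u (z - y) * v y) ∂ν ∂ν := integral_integral_swap hint
    _ = ∫ y, v y * ∫ z, u (z - y) * w z ∂ν ∂ν := by
        simp only [← integral_const_mul]
        congr 1 with y; congr 1 with z; ring
    _ = ∫ y, v y * ∫ x, u x * w (x + y) ∂ν ∂ν := by
        congr 1 with y; congr 1
        rw [← integral_sub_right_eq_self (fun x => u x * w (x + y)) y]
        simp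

/-- The convolution of bounded functions is continuous. -/
theorem continuous_conv {u v : 𝕋 → ℝ} (hu : Integrable u ν) (hum : Measurable u)
    (hv : Measurable v) (hub : ∀ x, ‖u x‖ ≤ 1) (hvb : ∀ x, ‖v x‖ ≤ 1) : Continuous (conv u v) := by
  refine continuous_of_uniform_approx_of_continuous fun W hW => ?_
  obtain ⟨ε, hε, hεW⟩ := Metric.mem_uniformity_dist.1 hW
  obtain ⟨g, hg, hgi⟩ := hu.exists_boundedContinuous_integral_sub_le (half_pos hε)
  refine ⟨conv g v, continuous_of_dominated (bound := fun _ => ‖g‖) (fun z => ?_) (fun z =>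
    Eventually.of_forall fun y => ?_) (integrable_const _) (Eventually.of_forall fun y => by fun_prop),
    fun z => hεW ?_⟩
  · exact ((g.continuous.measurable.comp (measurable_const.sub measurable_id)).mul hv).aestronglyMeasurable
  · rw [norm_mul]
    calc ‖g (z - y)‖ * ‖v y‖ ≤ ‖g‖ * 1 := by
          gcongr
          · exact g.norm_coe_le_norm _
          · exact hvb _
      _ = ‖g‖ := mul_one _
  · have hsh : Measurable fun y : 𝕋 => z - y := measurable_const.sub measurable_id
    have i1 : Integrable (fun y => u (z - y) * v y) ν := Integrable.of_bound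
      ((hum.comp hsh).mul hv).aestronglyMeasurable 1 (Eventually.of_forall fun y => by
        rw [norm_mul]; exact mul_le_one₀ (hub _) (norm_nonneg _) (hvb _))
    have i2 : Integrable (fun y => g (z - y) * v y) ν := Integrable.of_bound
      ((g.continuous.measurable.comp hsh).mul hv).aestronglyMeasurable ‖g‖
      (Eventually.of_forall fun y => by
        rw [norm_mul]; exact (mul_le_mul (g.norm_coe_le_norm _) (hvb _) (norm_nonneg _) (norm_nonneg _)).trans_eq (mul_one _))
    rw [dist_eq_norm, conv, conv, ← integral_sub i1 i2]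
    refine lt_of_le_of_lt ((norm_integral_le_integral_norm _).trans ?_) (half_lt_self hε)
    calc ∫ y, ‖u (z - y) * v y - g (z - y) * v y‖ ∂ν ≤ ∫ y, ‖u (z - y) - g (z - y)‖ ∂ν := by
          refine integral_mono (i1.sub i2).norm ?_ fun y => ?_
          · exact ((hu.sub hgi).comp_sub_left z).norm
          · rw [← sub_mul, norm_mul]; exact mul_le_of_le_one_right (norm_nonneg _) (hvb _)
      _ = ∫ x, ‖u x - g x‖ ∂ν := integral_sub_left_eq_self (fun x => ‖u x - g x‖) ν z
      _ ≤ ε / 2 := hg

/-- `u` cut at height one. -/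
def cut (u : 𝕋 → ℝ) (x : 𝕋) : ℝ := min (max (u x) 0) 1

theorem norm_cut_le (u : 𝕋 → ℝ) (x : 𝕋) : ‖cut u x‖ ≤ 1 := by
  rw [cut, Real.norm_of_nonneg (le_min (le_max_right _ _) zero_le_one)]; exact min_le_right _ _

theorem cut_nonneg (u : 𝕋 → ℝ) (x : 𝕋) : 0 ≤ cut u x := le_min (le_max_right _ _) zero_le_one

theorem cut_le {u : 𝕋 → ℝ} {x : 𝕋} (h : 0 ≤ u x) : cut u x ≤ u x :=
  (min_le_left _ _).trans_eq (max_eq_left h)

theorem measurable_cut {u : 𝕋 → ℝ} (h : Measurable u) : Measurable (cut u) :=
  (h.max measurable_const).min measurable_const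

theorem integrable_cut {u : 𝕋 → ℝ} (h : Measurable u) : Integrable (cut u) ν :=
  Integrable.of_bound (measurable_cut h).aestronglyMeasurable 1
    (Eventually.of_forall (norm_cut_le u))

theorem integral_cut_pos {u : 𝕋 → ℝ} (h : Measurable u) {s : Set 𝕋}
    (hs : 0 < ν ({x | 0 < u x} ∩ s)) : 0 < ∫ x in s, cut u x ∂ν := by
  refine (setIntegral_pos_iff_support_of_nonneg_ae (Eventually.of_forall (cut_nonneg u))
    (integrable_cut h).integrableOn).2 (hs.trans_le (measure_mono fun x hx => ⟨?_, hx.2⟩))
  exact (lt_min (lt_max_of_lt_left hx.1) zero_lt_one).ne'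

/-- Positivity of the density with product Fourier coefficients: given `V` and `v` there is an
open set `A` such that a density positive somewhere in `A` gives one positive on an open subset
of `V`. -/
theorem exists_open_of_product {V : Set 𝕋} (hV : IsOpen V) (hVne : V.Nonempty) {v : 𝕋 → ℝ}
    (hvm : Measurable v) (hv : Integrable v ν) (hv0 : ∀ x, 0 ≤ v x) (hvp : 0 < ∫ x, v x ∂ν) :
    ∃ A : Set 𝕋, IsOpen A ∧ A.Nonempty ∧ ∀ u : 𝕋 → ℝ, Measurable u → Integrable u ν →
      (∀ x, 0 ≤ u x) → 0 < ν ({x | 0 < u x} ∩ A) → ∀ D : 𝕋 → ℝ, Integrable D ν →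
      (∀ n, ∫ x, e n x * (D x : ℂ) ∂ν =
        (∫ x, e n x * (u x : ℂ) ∂ν) * ∫ x, e n x * (v x : ℂ) ∂ν) →
      ∃ W ⊆ V, IsOpen W ∧ W.Nonempty ∧ ∀ᵐ x ∂ν, x ∈ W → 0 < D x := by
  have hs : ν {x | 0 < v x} ≠ 0 := by
    have := (integral_pos_iff_support_of_nonneg hv0 hv).1 hvp
    refine (this.trans_le (measure_mono fun x hx => ?_)).ne'
    exact lt_of_le_of_ne (hv0 x) (Ne.symm hx)
  obtain ⟨y₀, -, hy₀⟩ := exists_mem_forall_mem_nhdsWithin_pos_measure hs
  obtain ⟨z, hz⟩ := hVne
  have hadd : (fun q : 𝕋 × 𝕋 => q.1 + q.2) ⁻¹' V ∈ 𝓝 (z - y₀, y₀) :=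
    (continuous_add.tendsto _) (by simpa using hV.mem_nhds hz)
  obtain ⟨A, B, hA, hAm, hB, hBm, hAB⟩ := mem_nhds_prod_iff'.1 hadd
  refine ⟨A, hA, ⟨_, hAm⟩, fun u hum hu hu0 hup D hD hc => ?_⟩
  have hBp : 0 < ν ({x | 0 < v x} ∩ B) := hy₀ _ (inter_mem_nhdsWithin _ (hB.mem_nhds hBm))
  set ψ := conv (cut u) (cut v) with hψ
  have hum' := measurable_cut hum
  have hvm' := measurable_cut hvm
  have hψc : Continuous ψ :=
    continuous_conv (integrable_cut hum) hum' hvm' (norm_cut_le u) (norm_cut_le v)
  have hψi : Integrable ψ ν := hψc.integrable_of_hasCompactSupport (HasCompactSupport.of_compactSpace _)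
  have hin : ∀ φ : C(𝕋, ℂ), Continuous fun y => ∫ x, φ (x + y) * (u x : ℂ) ∂ν := fun φ =>
    continuous_of_dominated (bound := fun x => ‖φ‖ * ‖(u x : ℂ)‖)
      (fun y => ((φ.continuous.comp (continuous_id.add continuous_const)).aestronglyMeasurable).mul
        hu.ofReal.1)
      (fun y => Eventually.of_forall fun x => by
        rw [norm_mul]; gcongr; exact φ.norm_coe_le_norm _)
      (hu.ofReal.norm.const_mul _) (Eventually.of_forall fun x => by fun_prop)
  have hib : ∀ (φ : C(𝕋, ℂ)) y, ‖∫ x, φ (x + y) * (u x : ℂ) ∂ν‖ ≤ ‖φ‖ * ∫ x, u x ∂ν :=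
      fun φ y => by
    rw [← integral_const_mul]
    refine norm_integral_le_of_norm_le (hu.const_mul _) (Eventually.of_forall fun x => ?_)
    rw [norm_mul, Complex.norm_real, Real.norm_of_nonneg (hu0 x)]
    exact mul_le_mul_of_nonneg_right (φ.norm_coe_le_norm _) (hu0 x)
  have hout : ∀ φ : C(𝕋, ℂ), Integrable
      (fun y => (∫ x, φ (x + y) * (u x : ℂ) ∂ν) * (v y : ℂ)) ν := fun φ =>
    hv.ofReal.bdd_mul (hin φ).aestronglyMeasurable (Eventually.of_forall (hib φ))
  have hadd' : ∀ φ φ' : C(𝕋, ℂ), ∫ y, (∫ x, (φ + φ') (x + y) * (u x : ℂ) ∂ν) * (v y : ℂ) ∂ν =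
      (∫ y, (∫ x, φ (x + y) * (u x : ℂ) ∂ν) * (v y : ℂ) ∂ν) +
        ∫ y, (∫ x, φ' (x + y) * (u x : ℂ) ∂ν) * (v y : ℂ) ∂ν := fun φ φ' => by
    rw [← integral_add (hout φ) (hout φ')]
    congr 1 with y
    rw [← add_mul, ← integral_add]
    · congr 1; congr 1 with x; simp [add_mul]
    all_goals
      exact hu.ofReal.bdd_mul (by fun_prop)
        (Eventually.of_forall fun x => ContinuousMap.norm_coe_le_norm _ _)
  let L : C(𝕋, ℂ) →ₗ[ℂ] ℂ :=
    { toFun := fun φ => ∫ y, (∫ x, φ (x + y) * (u x : ℂ) ∂ν) * (v y : ℂ) ∂ν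
      map_add' := hadd'
      map_smul' := fun c φ => by
        simp only [ContinuousMap.smul_apply, smul_eq_mul, mul_assoc, RingHom.id_apply,
          integral_const_mul] }
  let B' : C(𝕋, ℂ) →L[ℂ] ℂ := L.mkContinuous
    ((∫ x, u x ∂ν) * ∫ x, v x ∂ν)
    (fun φ => by
      show ‖∫ y, (∫ x, φ (x + y) * (u x : ℂ) ∂ν) * (v y : ℂ) ∂ν‖ ≤ _
      rw [mul_comm, ← mul_assoc, ← integral_const_mul]
      refine norm_integral_le_of_norm_le (hv.const_mul _) (Eventually.of_forall fun y => ?_)
      rw [norm_mul, Complex.norm_real, Real.norm_of_nonneg (hv0 y)]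
      exact mul_le_mul_of_nonneg_right (hib φ y) (hv0 y))
  have hDC : pairing hD.ofReal = B' := eq_of_fourier fun n => by
    refine (pairing_apply hD.ofReal (e n)).trans ((hc n).trans ?_)
    show _ = ∫ y, (∫ x, e n (x + y) * (u x : ℂ) ∂ν) * (v y : ℂ) ∂ν
    rw [← integral_const_mul]
    congr 1 with y
    rw [← integral_mul_const, ← integral_mul_const]
    congr 1 with x
    rw [e_add]; ring
  have key : ψ ≤ᵐ[ν] D := ae_le_of_continuous hD hψi fun φ hφ => by
    let φc : C(𝕋, ℂ) := ⟨fun x => (φ x : ℂ), Complex.continuous_ofReal.comp φ.continuous⟩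
    have h1 := congrArg (fun L : C(𝕋, ℂ) →L[ℂ] ℂ => L φc) hDC
    have h2 : ∫ x, φ x * D x ∂ν = ∫ y, (∫ x, φ (x + y) * u x ∂ν) * v y ∂ν := by
      have h3 : (∫ x, (φ x : ℂ) * (D x : ℂ) ∂ν) =
          ∫ y, (∫ x, (φ (x + y) : ℂ) * (u x : ℂ) ∂ν) * (v y : ℂ) ∂ν := h1
      simp only [← Complex.ofReal_mul, integral_complex_ofReal] at h3
      exact_mod_cast h3
    rw [h2, integral_conv hum' hvm' φ.continuous.measurable (C := ‖φ‖) (norm_cut_le u)
      (norm_cut_le v) fun x => φ.norm_coe_le_norm x]
    refine integral_mono_of_nonneg (Eventually.of_forall fun y => mul_nonneg (cut_nonneg v y)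
        (integral_nonneg fun x => mul_nonneg (cut_nonneg u x) (hφ _)))
      ?_ (Eventually.of_forall fun y => ?_)
    · refine hv.bdd_mul (c := ‖φ‖ * ∫ x, u x ∂ν) ?_ (Eventually.of_forall fun y => ?_)
      · refine (continuous_of_dominated (bound := fun x => ‖φ‖ * u x) (fun y => ?_)
          (fun y => Eventually.of_forall fun x => ?_) (hu.const_mul _)
          (Eventually.of_forall fun x => by fun_prop)).aestronglyMeasurable
        · exact ((φ.continuous.comp (continuous_id.add continuous_const)).aestronglyMeasurable).mul hu.1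
        · rw [norm_mul, Real.norm_of_nonneg (hu0 x)]
          exact mul_le_mul_of_nonneg_right (φ.norm_coe_le_norm _) (hu0 x)
      · rw [← integral_const_mul]
        refine norm_integral_le_of_norm_le (hu.const_mul _) (Eventually.of_forall fun x => ?_)
        rw [norm_mul, Real.norm_of_nonneg (hu0 x)]
        exact mul_le_mul_of_nonneg_right (φ.norm_coe_le_norm _) (hu0 x)
    · show cut v y * (∫ x, cut u x * φ (x + y) ∂ν) ≤ (∫ x, φ (x + y) * u x ∂ν) * v y
      rw [mul_comm (cut v y)]
      refine mul_le_mul ?_ (cut_le (hv0 y)) (cut_nonneg v y)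
        (integral_nonneg fun x => mul_nonneg (hφ _) (hu0 x))
      refine integral_mono_of_nonneg (Eventually.of_forall fun x => mul_nonneg (cut_nonneg u x)
        (hφ _)) (hu.bdd_mul (by fun_prop) (Eventually.of_forall fun x =>
          ContinuousMap.norm_coe_le_norm φ _)) (Eventually.of_forall fun x => ?_)
      show cut u x * φ (x + y) ≤ φ (x + y) * u x
      rw [mul_comm]; exact mul_le_mul_of_nonneg_left (cut_le (hu0 x)) (hφ _)
  refine ⟨V ∩ {x | 0 < ψ x}, inter_subset_left, hV.inter (isOpen_lt continuous_const hψc), ?_, ?_⟩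
  · by_contra hempty
    have hneg : ∀ x, V.indicator (fun _ => (1 : ℝ)) x * ψ x ≤ 0 := fun x => by
      by_cases hx : x ∈ V
      · simp only [indicator_of_mem hx, one_mul]
        exact not_lt.1 fun h => hempty ⟨x, hx, h⟩
      · simp [hx]
    have hw : Measurable (V.indicator (fun _ => (1 : ℝ))) := measurable_const.indicator hV.measurableSet
    have hwb : ∀ x, ‖V.indicator (fun _ => (1 : ℝ)) x‖ ≤ 1 := fun x =>
      (norm_indicator_le_norm_self _ _).trans_eq norm_one
    have hle := (integral_conv hum' hvm' hw (norm_cut_le u) (norm_cut_le v) hwb).symm.trans_le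
      (integral_nonpos hneg)
    have hpu := integral_cut_pos hum (s := A) hup
    have hpv := integral_cut_pos hvm (s := B) hBp
    have : (∫ y in B, cut v y ∂ν) * (∫ x in A, cut u x ∂ν) ≤
        ∫ y, cut v y * ∫ x, cut u x * V.indicator (fun _ => (1 : ℝ)) (x + y) ∂ν ∂ν := by
      rw [← integral_mul_const, ← integral_indicator hB.measurableSet]
      refine integral_mono_of_nonneg (Eventually.of_forall fun y => indicator_nonneg (fun y _ =>
        mul_nonneg (cut_nonneg v y) (setIntegral_nonneg hA.measurableSet fun x _ => cut_nonneg u x)) y)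
        (Integrable.of_bound ?_ 1 ?_) (Eventually.of_forall fun y => ?_)
      · exact (hvm'.mul (((hum'.comp measurable_snd).mul (hw.comp
          (measurable_snd.add measurable_fst))).stronglyMeasurable.integral_prod_right.measurable)).aestronglyMeasurable
      · refine Eventually.of_forall fun y => ?_
        rw [norm_mul]
        refine mul_le_one₀ (norm_cut_le v y) (norm_nonneg _) ?_
        refine (norm_integral_le_of_norm_le_const (C := 1) (Eventually.of_forall fun x => ?_)).trans
          (by simp)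
        rw [norm_mul]; exact mul_le_one₀ (norm_cut_le u x) (norm_nonneg _) (hwb _)
      · by_cases hy : y ∈ B
        · simp only [indicator_of_mem hy]
          refine mul_le_mul_of_nonneg_left ?_ (cut_nonneg v y)
          rw [← integral_indicator hA.measurableSet]
          refine integral_mono ((integrable_cut hum).indicator hA.measurableSet)
            (Integrable.of_bound (hum'.mul (hw.comp (measurable_id.add_const y))).aestronglyMeasurable
              1 (Eventually.of_forall fun x => by
                rw [norm_mul]; exact mul_le_one₀ (norm_cut_le u x) (norm_nonneg _) (hwb _)))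
            fun x => ?_
          by_cases hx : x ∈ A
          · have : x + y ∈ V := hAB (Set.mk_mem_prod hx hy)
            simp [hx, this]
          · simp only [indicator_of_notMem hx]
            exact mul_nonneg (cut_nonneg u x) (indicator_nonneg (fun _ _ => zero_le_one) _)
        · simp only [indicator_of_notMem hy]
          exact mul_nonneg (cut_nonneg v y) (integral_nonneg fun x =>
            mul_nonneg (cut_nonneg u x) (indicator_nonneg (fun _ _ => zero_le_one) _))
    exact absurd (lt_of_lt_of_le (mul_pos hpv hpu) (this.trans hle)) (lt_irrefl 0)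
  · filter_upwards [key] with x hx hxW
    exact hxW.2.trans_le hx

end

end Vale.Agent.P130
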