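import Vale.Agent.P130.Spectral

/-!
# Full spectral support of factors
-/

namespace Vale.Agent.P130

open MeasureTheory Filter Set
open scoped Topology ENNReal ComplexConjugate InnerProductSpace

noncomputable section

variable {Ω : Type*} {m M M' : MeasurableSpace Ω} [mΩ : MeasurableSpace Ω] {μ : Measure[mΩ] Ω}
  [IsProbabilityMeasure μ] {T : Ω → Ω}

/-- A bounded function measurable for a given sigma algebra. -/
def Fn (M : MeasurableSpace Ω) (f : Ω → ℂ) : Prop :=
  Measurable[M] f ∧ ∃ C : ℝ, ∀ x, ‖f x‖ ≤ C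

theorem Fn.memLp {f : Ω → ℂ} (h : Fn M f) (hM : M ≤ mΩ) (p : ℝ≥0∞) :
    MemLp f p μ := by
  obtain ⟨hm, C, hC⟩ := h
  exact MemLp.of_bound (hm.mono hM le_rfl).aestronglyMeasurable C (Eventually.of_forall hC)

theorem Fn.integrable {f : Ω → ℂ} (h : Fn M f) (hM : M ≤ mΩ) :
    Integrable f μ := (h.memLp hM 1).integrable le_rfl

theorem Fn.mul {f g : Ω → ℂ} (hf : Fn M f) (hg : Fn M g) :
    Fn M (fun x => f x * g x) := by
  obtain ⟨hf1, C, hC⟩ := hf
  obtain ⟨hg1, D, hD⟩ := hg
  exact ⟨hf1.mul hg1, C * D, fun x => (norm_mul _ _).trans_le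
    (mul_le_mul (hC x) (hD x) (norm_nonneg _) ((norm_nonneg _).trans (hC x)))⟩

theorem Fn.const (c : ℂ) : Fn M (fun _ => c) :=
  ⟨measurable_const, ‖c‖, fun _ => le_rfl⟩

theorem Fn.sub_const {f : Ω → ℂ} (hf : Fn M f) (c : ℂ) :
    Fn M (fun x => f x - c) := by
  obtain ⟨hf1, C, hC⟩ := hf
  exact ⟨hf1.sub measurable_const, C + ‖c‖,
    fun x => (norm_sub_le _ _).trans (by linarith [hC x])⟩

theorem Fn.conj' {f : Ω → ℂ} (hf : Fn M f) :
    Fn M (fun x => conj (f x)) := by
  obtain ⟨hf1, C, hC⟩ := hf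
  exact ⟨Complex.continuous_conj.measurable.comp hf1, C, fun x => by simpa using hC x⟩

theorem Fn.comp {f : Ω → ℂ} (hf : Fn M f) {g : Ω → Ω}
    (hg : Measurable[M, M] g) : Fn M (fun x => f (g x)) :=
  ⟨hf.1.comp hg, hf.2.imp fun _ hC x => hC (g x)⟩

theorem Fn.mono {f : Ω → ℂ} (hf : Fn M f) (h : M ≤ M') : Fn M' f :=
  ⟨hf.1.mono h le_rfl, hf.2⟩

namespace Sys

variable {ι : Type*} (S : Sys μ T ι)

theorem iter_toLp {f : Ω → ℂ} (hf : MemLp f 2 μ) (n : ℕ) :
    S.U^[n] (hf.toLp f) = (hf.comp_measurePreserving (S.mp.iterate n)).toLp (f ∘ T^[n]) := by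
  induction n with
  | zero => exact (MemLp.toLp_congr _ _ (Eventually.of_forall fun x => rfl))
  | succ n ih =>
    rw [Function.iterate_succ_apply', ih]
    show Lp.compMeasurePreserving T S.mp _ = _
    rw [Lp.toLp_compMeasurePreserving]
    exact MemLp.toLp_congr _ _ (Eventually.of_forall fun x => by
      simp only [Function.comp_apply, Function.iterate_succ_apply])

theorem inner_toLp {f g : Ω → ℂ} (hf : MemLp f 2 μ) (hg : MemLp g 2 μ) :
    ⟪hf.toLp f, hg.toLp g⟫_ℂ = ∫ x, conj (f x) * g x ∂μ := by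
  rw [L2.inner_def]
  refine integral_congr_ae ?_
  filter_upwards [hf.coeFn_toLp, hg.coeFn_toLp] with x a b
  rw [a, b, RCLike.inner_apply, mul_comm]

theorem inner_one {f : Ω → ℂ} (hf : MemLp f 2 μ) : ⟪one2 μ, hf.toLp f⟫_ℂ = ∫ x, f x ∂μ := by
  rw [one2, inner_toLp]
  simp

theorem norm_sq_toLp {f : Ω → ℂ} (hf : MemLp f 2 μ) :
    ‖hf.toLp f‖ ^ 2 = ∫ x, ‖f x‖ ^ 2 ∂μ := by
  have h := inner_toLp hf hf
  rw [inner_self_eq_norm_sq_to_K] at h
  simp only [← Complex.normSq_eq_conj_mul_self, Complex.normSq_eq_norm_sq, integral_complex_ofReal] at h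
  exact Complex.ofReal_injective (by simpa using h)

variable (hm : m ≤ mΩ) (hT : Measurable[m, m] T)
  (hne : ∃ s, MeasurableSet[m] s ∧ μ s ≠ 0 ∧ μ s ≠ 1)

include hm hne hT S

/-- Sets that meet none of their first `n` translates. -/
theorem exists_tower (n : ℕ) :
    ∃ E, MeasurableSet[m] E ∧ μ E ≠ 0 ∧ ∀ i, 1 ≤ i → i ≤ n → μ (E ∩ T^[i] ⁻¹' E) = 0 := by
  induction n with
  | zero =>
    obtain ⟨s, hs, h0, -⟩ := hne
    exact ⟨s, hs, h0, fun i h1 h2 => absurd h2 (by omega)⟩
  | succ n ih =>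
    obtain ⟨E, hE, hE0, hEi⟩ := ih
    have hTj : ∀ {F : Set Ω}, MeasurableSet[m] F → ∀ j, MeasurableSet[m] (T^[j] ⁻¹' F) :=
      fun hF j => (hT.iterate j) hF
    by_cases hex : ∃ F ⊆ E, MeasurableSet[m] F ∧ μ (F \ T^[n + 1] ⁻¹' F) ≠ 0
    · obtain ⟨F, hFE, hF, hF0⟩ := hex
      refine ⟨F \ T^[n + 1] ⁻¹' F, hF.diff (hTj hF _), hF0, fun i h1 h2 => ?_⟩
      rcases Nat.lt_or_ge i (n + 1) with h3 | h3
      · exact measure_mono_null (inter_subset_inter (sdiff_subset.trans hFE)
          (preimage_mono (sdiff_subset.trans hFE))) (hEi i h1 (by omega))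
      · obtain rfl : i = n + 1 := le_antisymm h2 h3
        refine measure_mono_null (fun x hx => ?_) (measure_empty (μ := μ))
        exact absurd hx.2.1 hx.1.2
    · exfalso
      simp only [not_exists, not_and, not_not] at hex
      have key : ∀ F ⊆ E, MeasurableSet[m] F → μ.real F = μ.real F * μ.real F := by
        intro F hFE hF
        have hFm : MeasurableSet F := hm _ hF
        have hpre : ∀ k : ℕ, T^[(n + 1) * k] ⁻¹' F =ᵐ[μ] F := by
          have hmp := S.mp.iterate (n + 1)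
          have h1 : F =ᵐ[μ] T^[n + 1] ⁻¹' F :=
            ae_eq_of_ae_subset_of_measure_ge (ae_le_set.2 (hex F hFE hF))
              (hmp.measure_preimage hFm.nullMeasurableSet).le hFm.nullMeasurableSet
              (measure_ne_top _ _)
          intro k
          induction k with
          | zero => exact Eventually.of_forall fun x => rfl
          | succ k ih =>
            have h3 : T^[(n + 1) * (k + 1)] ⁻¹' F = T^[n + 1] ⁻¹' (T^[(n + 1) * k] ⁻¹' F) := by
              rw [← preimage_comp, ← Function.iterate_add]; rfl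
            rw [h3]
            exact (hmp.quasiMeasurePreserving.preimage_ae_eq ih).trans h1.symm
        let f : Ω → ℂ := F.indicator fun _ => 1
        have hf : MemLp f 2 μ := (memLp_const 1).indicator hFm
        have hg : MemLp (fun x => f x - (μ.real F : ℂ)) 2 μ := hf.sub (memLp_const _)
        have hint : ∫ x, f x ∂μ = (μ.real F : ℂ) := by
          show ∫ x, F.indicator (fun _ => (1 : ℂ)) x ∂μ = _
          rw [integral_indicator hFm]; simp
        have hg1 : ⟪one2 μ, hg.toLp _⟫_ℂ = 0 := by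
          rw [inner_one, integral_sub (hf.integrable (by norm_num)) (integrable_const _), hint]
          simp
        have hlim := (S.tendsto_corr (hf.toLp f) hg1).comp
          (tendsto_atTop_atTop.2 fun b => ⟨b, fun k hk =>
            hk.trans (Nat.le_mul_of_pos_left k (Nat.succ_pos n))⟩ :
            Tendsto (fun k => (n + 1) * k) atTop atTop)
        have hconst : ∀ k : ℕ, ⟪S.U^[(n + 1) * k] (hf.toLp f), hg.toLp _⟫_ℂ =
            (μ.real F : ℂ) - (μ.real F : ℂ) * (μ.real F : ℂ) := by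
          intro k
          rw [iter_toLp, inner_toLp]
          calc ∫ x, conj (f (T^[(n + 1) * k] x)) * (f x - (μ.real F : ℂ)) ∂μ
              = ∫ x, f x * (1 - (μ.real F : ℂ)) ∂μ := by
                refine integral_congr_ae ?_
                filter_upwards [(hpre k)] with x hx
                have hx' : (T^[(n + 1) * k] x ∈ F) = (x ∈ F) := hx
                by_cases h : x ∈ F
                · have h' : T^[(n + 1) * k] x ∈ F := hx' ▸ h
                  simp [f, h, h']
                · have h' : T^[(n + 1) * k] x ∉ F := by rwa [hx']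
                  simp [f, h, h']
            _ = _ := by rw [integral_mul_const, hint]; ring
        have := tendsto_nhds_unique (hlim.congr hconst) tendsto_const_nhds
        have h4 : (μ.real F : ℂ) = (μ.real F : ℂ) * (μ.real F : ℂ) := sub_eq_zero.1 this.symm
        exact_mod_cast h4
      obtain ⟨s, hs, hs0, hs1⟩ := hne
      have hE1 : μ.real E = 1 := by
        have h := key E subset_rfl hE
        have h0 : μ.real E ≠ 0 := by simpa [measureReal_eq_zero_iff] using hE0
        exact (mul_left_cancel₀ h0 (by linarith : μ.real E * 1 = μ.real E * μ.real E)).symm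
      have hEu : E =ᵐ[μ] (univ : Set Ω) := by
        rw [ae_eq_univ, prob_compl_eq_zero_iff (hm _ hE)]
        have := congrArg ENNReal.ofReal hE1
        rwa [ofReal_measureReal, ENNReal.ofReal_one] at this
      have hF := key (s ∩ E) inter_subset_right (hs.inter hE)
      have heq : μ.real (s ∩ E) = μ.real s := by
        refine measureReal_congr ?_
        filter_upwards [hEu] with x hx
        have hx' : x ∈ E := (show (x ∈ E) = (x ∈ (univ : Set Ω)) from hx).symm ▸ mem_univ x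
        exact propext ⟨fun h => h.1, fun h => ⟨h, hx'⟩⟩
      rw [heq] at hF
      have h0 : μ.real s ≠ 0 := by simpa [measureReal_eq_zero_iff] using hs0
      have h1 : μ.real s = 1 :=
        (mul_left_cancel₀ h0 (by linarith : μ.real s * 1 = μ.real s * μ.real s)).symm
      apply hs1
      have := congrArg ENNReal.ofReal h1
      rwa [ofReal_measureReal, ENNReal.ofReal_one] at this

variable [Fintype ι]

/-- **A factor has spectral mass in every open set.** -/
theorem exists_fn_pos {V : Set 𝕋} (hV : IsOpen V) (hVne : V.Nonempty) :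
    ∃ f, Fn m f ∧ ∫ x, f x ∂μ = 0 ∧
      ∀ hf : MemLp f 2 μ, 0 < ν ({x | 0 < S.hd (hf.toLp f) x} ∩ V) := by
  by_contra hcon
  simp only [not_exists, not_and, not_forall, not_lt, nonpos_iff_eq_zero] at hcon
  obtain ⟨x₀, hx₀V, hx₀⟩ : ∃ x ∈ V, x ≠ (0 : 𝕋) := by
    by_contra h
    push Not at h
    have : ν V ≤ ν ({0} : Set 𝕋) := measure_mono fun x hx => h x hx
    have h0 : ν ({0} : Set 𝕋) = 0 := by
      have h1 := AddCircle.volume_closedBall (T := (1 : ℝ)) (x := 0) 0
      rw [Metric.closedBall_zero, AddCircle.volume_eq_smul_haarAddCircle] at h1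
      simpa using h1
    rw [h0] at this
    exact (hV.measure_pos ν hVne).not_ge this
  set z : ℂ := e 1 x₀ with hz
  have hinj : ∀ a b : 𝕋, e 1 a = e 1 b → a = b := fun a b h => by
    rw [fourier_one, fourier_one] at h
    exact AddCircle.injective_toCircle one_ne_zero (Circle.coe_injective h)
  have hz1 : conj z - 1 ≠ 0 := by
    intro h
    refine hx₀ (hinj _ _ ?_)
    rw [fourier_eval_zero]
    simpa [hz] using congrArg conj (sub_eq_zero.1 h)
  obtain ⟨c, hc, hfar⟩ : ∃ c > 0, ∀ x, x ∉ V → c ≤ ‖e 1 x - z‖ := by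
    rcases (Vᶜ).eq_empty_or_nonempty with h | h
    · exact ⟨1, one_pos, fun x hx => absurd hx (by rw [compl_empty_iff] at h; simp [h])⟩
    · obtain ⟨x₁, hx₁, hmin⟩ := hV.isClosed_compl.isCompact.exists_isMinOn h
        (f := fun x => ‖e 1 x - z‖) (by fun_prop)
      refine ⟨_, norm_pos_iff.2 (sub_ne_zero.2 fun h => hx₁ (by rw [hinj x₁ x₀ h]; exact hx₀V)), fun x hx => hmin hx⟩
  set w : ℂ := conj z with hw
  have hwn : ‖w‖ = 1 := by rw [hw, Complex.norm_conj, hz, norm_e]
  have hzw : z * w = 1 := by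
    rw [hw, Complex.mul_conj, Complex.normSq_eq_norm_sq, hz, norm_e]; simp
  set d : ℝ := ‖w - 1‖ with hd
  have hd0 : 0 < d := norm_pos_iff.2 hz1
  set K : ℝ := 4 / d ^ 2 + (2 + 4 / d) ^ 2 / c ^ 2 with hK
  obtain ⟨n, hn⟩ := exists_nat_gt K
  obtain ⟨E, hE, hE0, hEi⟩ := S.exists_tower hm hT hne n
  have hEm : MeasurableSet E := hm _ hE
  set δ : ℝ := μ.real E with hδ
  have hδ0 : 0 < δ := lt_of_le_of_ne measureReal_nonneg
    (Ne.symm (by simpa [hδ, measureReal_eq_zero_iff] using hE0))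
  have hδ1 : δ ≤ 1 := measureReal_le_one
  let P : ℕ → Set Ω := fun i => T^[i] ⁻¹' E
  have hP : ∀ i, MeasurableSet[m] (P i) := fun i => (hT.iterate i) hE
  have hPμ : ∀ i, μ.real (P i) = δ := fun i => by
    simp only [P, hδ, measureReal_def, (S.mp.iterate i).measure_preimage hEm.nullMeasurableSet]
  let g : ℕ → Ω → ℂ := fun i => (P i).indicator fun _ => 1
  have hgi : ∀ i, Integrable (g i) μ := fun i => (integrable_const 1).indicator (hm _ (hP i))
  have hgint : ∀ i, ∫ x, g i x ∂μ = (δ : ℂ) := fun i => by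
    show ∫ x, (P i).indicator (fun _ => (1 : ℂ)) x ∂μ = _
    rw [integral_indicator (hm _ (hP i))]; simp [hPμ i]
  let f : Ω → ℂ := fun x => ∑ i ∈ Finset.range n, w ^ i * g i x
  have hgn : ∀ i x, ‖g i x‖ ≤ 1 := fun i x =>
    (norm_indicator_le_norm_self _ _).trans_eq norm_one
  have hfF : Fn m f := by
    refine ⟨Finset.measurable_sum _ fun i _ => (measurable_const.indicator (hP i)).const_mul _,
      n, fun x => (norm_sum_le _ _).trans ?_⟩
    refine (Finset.sum_le_sum fun i _ => ?_).trans_eq (show ∑ _i ∈ Finset.range n, (1 : ℝ) = n by simp)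
    rw [norm_mul, norm_pow, hwn, one_pow, one_mul]; exact hgn i x
  set c₀ : ℂ := ∫ x, f x ∂μ with hc₀
  have hc₀e : c₀ = (δ : ℂ) * ∑ i ∈ Finset.range n, w ^ i := by
    rw [hc₀, integral_finsetSum _ fun i _ => (hgi i).const_mul _, Finset.mul_sum]
    exact Finset.sum_congr rfl fun i _ => by rw [integral_const_mul, hgint]; ring
  have hc₀b : ‖c₀‖ ≤ 2 * δ / d := by
    rw [hc₀e, norm_mul, Complex.norm_real, Real.norm_of_nonneg hδ0.le, le_div_iff₀ hd0, mul_assoc, hd,
      ← norm_mul, geom_sum_mul, mul_comm 2 δ]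
    gcongr
    refine (norm_sub_le _ _).trans_eq ?_
    simp [hwn]; norm_num
  have hdis : ∀ᵐ x ∂μ, ∀ a b, a < n → b < n → a < b → x ∈ P a → x ∉ P b := by
    refine ae_all_iff.2 fun a => ae_all_iff.2 fun b => ?_
    by_cases hab : a < b ∧ b < n
    · have h0 : μ (P a ∩ P b) = 0 := by
        have he : P a ∩ P b = T^[a] ⁻¹' (E ∩ T^[b - a] ⁻¹' E) := by
          rw [preimage_inter, ← preimage_comp, ← Function.iterate_add, Nat.sub_add_cancel hab.1.le]
        rw [he, (S.mp.iterate a).measure_preimage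
          (hEm.inter ((S.mp.iterate _).measurable hEm)).nullMeasurableSet]
        exact hEi _ (by omega) (by omega)
      filter_upwards [compl_mem_ae_iff.2 h0] with x hx _ _ _ ha hb
      exact hx ⟨ha, hb⟩
    · exact Eventually.of_forall fun x _ h2 h3 => absurd ⟨h3, h2⟩ hab
  have hsq : ∫ x, ‖f x‖ ^ 2 ∂μ = n * δ := by
    have hae : ∀ᵐ x ∂μ, ‖f x‖ ^ 2 = ∑ i ∈ Finset.range n, (P i).indicator (fun _ => (1 : ℝ)) x := by
      filter_upwards [hdis] with x hx
      by_cases hex : ∃ a < n, x ∈ P a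
      · obtain ⟨a, ha, hxa⟩ := hex
        have hother : ∀ i < n, i ≠ a → x ∉ P i := fun i hi hia hxi => by
          rcases lt_or_gt_of_ne hia with h | h
          · exact hx i a hi ha h hxi hxa
          · exact hx a i ha hi h hxa hxi
        simp only [f]
        rw [Finset.sum_eq_single a, Finset.sum_eq_single a]
        · simp [g, hxa, hwn]
        · exact fun i hi hia => indicator_of_notMem (hother i (Finset.mem_range.1 hi) hia) _
        · simp [ha]
        · exact fun i hi hia => by simp [g, hother i (Finset.mem_range.1 hi) hia]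
        · simp [ha]
      · simp only [not_exists, not_and] at hex
        simp only [f]
        rw [Finset.sum_eq_zero fun i hi => by simp [g, hex i (Finset.mem_range.1 hi)],
          Finset.sum_eq_zero fun i hi => by simp [hex i (Finset.mem_range.1 hi)]]
        simp
    rw [integral_congr_ae hae,
      integral_finsetSum _ fun i _ => (integrable_const 1).indicator (hm _ (hP i))]
    simp [fun i => integral_indicator (μ := μ) (f := fun _ => (1 : ℝ)) (hm _ (hP i)), hPμ]
  have hfm : MemLp f 2 μ := hfF.memLp hm 2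
  let f₀ : Ω → ℂ := fun x => f x - c₀
  have hf₀m : MemLp f₀ 2 μ := hfm.sub (memLp_const _)
  have hf₀0 : ∫ x, f₀ x ∂μ = 0 := by
    show ∫ x, (f x - c₀) ∂μ = 0
    rw [integral_sub (hfF.integrable hm) (integrable_const _)]
    simp [← hc₀]
  set v := hf₀m.toLp f₀ with hv
  set vf := hfm.toLp f with hvf
  have hvsub : v = vf - c₀ • one2 μ := by
    rw [hv, hvf, one2, ← MemLp.toLp_const_smul, ← MemLp.toLp_sub]
    exact MemLp.toLp_congr _ _ (Eventually.of_forall fun x => by simp [f₀])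
  have hv0 : ⟪one2 μ, v⟫_ℂ = 0 := by rw [hv, inner_one, hf₀0]
  have hnorm : ‖v‖ ^ 2 = n * δ - ‖c₀‖ ^ 2 := by
    have h1 : ‖vf‖ ^ 2 = n * δ := by rw [hvf, norm_sq_toLp, hsq]
    have h2 : vf = v + c₀ • one2 μ := by rw [hvsub]; abel
    have h3 : ⟪v, c₀ • one2 μ⟫_ℂ = 0 := by
      rw [inner_smul_right, inner_eq_zero_symm.1 hv0, mul_zero]
    have h4 := norm_add_sq_eq_norm_sq_add_norm_sq_of_inner_eq_zero _ _ h3
    rw [← h2] at h4
    have h5 : ‖one2 μ‖ = 1 := by
      have : ‖one2 μ‖ ^ 2 = 1 := by rw [one2, norm_sq_toLp]; simp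
      exact (sq_eq_one_iff.1 this).resolve_right fun h => by
        have := norm_nonneg (one2 μ); linarith
    rw [norm_smul, h5, mul_one] at h4
    nlinarith [h1, h4]
  have hzero : ∀ᵐ x ∂ν, x ∈ V → S.hd v x = 0 := by
    obtain ⟨hm', h0⟩ := hcon f₀ (hfF.sub_const c₀) hf₀0
    filter_upwards [compl_mem_ae_iff.2 h0] with x hx hxV
    exact le_antisymm (not_lt.1 fun h => hx ⟨h, hxV⟩) (S.hd_nonneg _ _)
  have hmain := S.sq_mul_integral_le hv0 z hc.le hfar hzero
  have htel : ∀ (k : ℕ) x, (∑ i ∈ Finset.range k, w ^ i * g i (T x)) -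
      z * ∑ i ∈ Finset.range k, w ^ i * g i x = z * w ^ k * g k x - z * g 0 x := by
    intro k x
    induction k with
    | zero => simp
    | succ k ih =>
      rw [Finset.sum_range_succ, Finset.sum_range_succ]
      have h1 : g k (T x) = g (k + 1) x := by
        show (T^[k] ⁻¹' E).indicator _ (T x) = (T^[k + 1] ⁻¹' E).indicator _ x
        by_cases h : T^[k] (T x) ∈ E
        · rw [indicator_of_mem (show T x ∈ T^[k] ⁻¹' E from h), indicator_of_mem (show x ∈ T^[k + 1] ⁻¹' E from h)]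
        · rw [indicator_of_notMem (show T x ∉ T^[k] ⁻¹' E from h), indicator_of_notMem (show x ∉ T^[k + 1] ⁻¹' E from h)]
      rw [h1, show z * w ^ (k + 1) = w ^ k by rw [pow_succ, mul_left_comm, hzw, mul_one]]
      linear_combination ih
  have hgm : ∀ i, MemLp (g i) 2 μ := fun i => (memLp_const 1).indicator (hm _ (hP i))
  have hgnorm : ∀ i, ‖(hgm i).toLp (g i)‖ ≤ Real.sqrt δ := fun i => by
    refine Real.le_sqrt_of_sq_le ?_
    rw [norm_sq_toLp]
    refine le_of_eq ?_
    calc ∫ x, ‖g i x‖ ^ 2 ∂μ = ∫ x, (P i).indicator (fun _ => (1 : ℝ)) x ∂μ := by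
          congr 1 with x; by_cases h : x ∈ P i <;> simp [g, h]
      _ = δ := by rw [integral_indicator (hm _ (hP i))]; simp [hPμ i]
  have hUf : S.U vf - z • vf = (z * w ^ n) • (hgm n).toLp (g n) - z • (hgm 0).toLp (g 0) := by
    have h1 := S.iter_toLp hfm 1
    simp only [Function.iterate_one] at h1
    rw [hvf, h1, ← MemLp.toLp_const_smul, ← MemLp.toLp_const_smul, ← MemLp.toLp_const_smul,
      ← MemLp.toLp_sub, ← MemLp.toLp_sub]
    exact MemLp.toLp_congr _ _ (Eventually.of_forall fun x => by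
      simpa [f, mul_assoc] using htel n x)
  have hb : ‖S.U v - z • v‖ ≤ (2 + 4 / d) * Real.sqrt δ := by
    have h1 : S.U v - z • v = (S.U vf - z • vf) - ((1 - z) * c₀) • one2 μ := by
      rw [hvsub, map_sub, map_smul, U_one, sub_mul, one_mul, sub_smul, smul_sub, smul_smul]
      abel
    rw [h1, hUf]
    refine (norm_sub_le _ _).trans ?_
    refine (add_le_add (norm_sub_le _ _) le_rfl).trans ?_
    have h5 : ‖one2 μ‖ ≤ 1 := by
      have : ‖one2 μ‖ ^ 2 = 1 := by rw [one2, norm_sq_toLp]; simp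
      nlinarith [norm_nonneg (one2 μ)]
    have hz' : ‖z‖ = 1 := norm_e _ _
    have hsd : δ ≤ Real.sqrt δ := Real.le_sqrt_of_sq_le (by nlinarith)
    have a1 : ‖(z * w ^ n) • (hgm n).toLp (g n)‖ ≤ Real.sqrt δ := by
      rw [norm_smul, norm_mul, norm_pow, hz', hwn, one_pow, one_mul, one_mul]; exact hgnorm n
    have a2 : ‖z • (hgm 0).toLp (g 0)‖ ≤ Real.sqrt δ := by
      rw [norm_smul, hz', one_mul]; exact hgnorm 0
    have a3 : ‖((1 - z) * c₀) • one2 μ‖ ≤ 4 / d * Real.sqrt δ := by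
      rw [norm_smul, norm_mul]
      calc ‖1 - z‖ * ‖c₀‖ * ‖one2 μ‖ ≤ 2 * (2 * δ / d) * 1 := by
            gcongr
            exact (norm_sub_le _ _).trans_eq (by rw [hz', norm_one]; norm_num)
        _ = 4 / d * δ := by ring
        _ ≤ _ := by gcongr
    linarith
  have h6 : ‖S.U v - z • v‖ ^ 2 ≤ (2 + 4 / d) ^ 2 * δ := by
    calc ‖S.U v - z • v‖ ^ 2 ≤ ((2 + 4 / d) * Real.sqrt δ) ^ 2 := by gcongr
      _ = _ := by rw [mul_pow, Real.sq_sqrt hδ0.le]
  rw [hnorm] at hmain
  have h7 : ‖c₀‖ ^ 2 ≤ 4 / d ^ 2 * δ := by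
    calc ‖c₀‖ ^ 2 ≤ (2 * δ / d) ^ 2 := by gcongr
      _ = 4 / d ^ 2 * (δ * δ) := by ring
      _ ≤ 4 / d ^ 2 * δ := by gcongr; nlinarith
  have h8 : c ^ 2 * (n * δ) ≤ ((2 + 4 / d) ^ 2 + c ^ 2 * (4 / d ^ 2)) * δ := by
    nlinarith [mul_le_mul_of_nonneg_left h7 (sq_nonneg c)]
  have h9 : (n : ℝ) ≤ K := by
    rw [hK, ← mul_le_mul_iff_right₀ (show (0 : ℝ) < c ^ 2 * δ by positivity)]
    have : c ^ 2 * δ * (4 / d ^ 2 + (2 + 4 / d) ^ 2 / c ^ 2) =
        ((2 + 4 / d) ^ 2 + c ^ 2 * (4 / d ^ 2)) * δ := by field_simp; ring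
    rw [this]; linarith
  linarith

end Sys

end

end Vale.Agent.P130
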