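import Vale.Agent.P130.Factor

/-!
# Independent factors and the multiplicity of Lebesgue spectrum
-/

namespace Vale.Agent.P130

open MeasureTheory Filter Set ProbabilityTheory
open scoped Topology ENNReal ComplexConjugate InnerProductSpace

noncomputable section

variable {Ω : Type*} [mΩ : MeasurableSpace Ω] {μ : Measure Ω} [IsProbabilityMeasure μ] {T : Ω → Ω}
variable {J : Type*} [DecidableEq J] {m : J → MeasurableSpace Ω}

/-- The sigma algebra generated by the factors in `s`. -/
abbrev gen (m : J → MeasurableSpace Ω) (s : Finset J) : MeasurableSpace Ω :=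
  ⨆ q ∈ (s : Set J), m q

omit mΩ [DecidableEq J] in
theorem measurable_gen (hT : ∀ q, Measurable[m q, m q] T) (s : Finset J) (n : ℕ) :
    Measurable[gen m s, gen m s] T^[n] := by
  refine Measurable.iterate (measurable_iff_comap_le.2 ?_) n
  simp only [MeasurableSpace.comap_iSup]
  exact iSup₂_mono fun q _ => measurable_iff_comap_le.1 (hT q)

theorem gen_le (hm : ∀ q, m q ≤ mΩ) (s : Finset J) : gen m s ≤ mΩ := iSup₂_le fun q _ => hm q

omit mΩ [DecidableEq J] in
theorem le_gen {q : J} {s : Finset J} (h : q ∈ s) : m q ≤ gen m s :=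
  le_iSup₂ (f := fun q (_ : q ∈ (s : Set J)) => m q) q (Finset.mem_coe.2 h)

theorem indep_gen (hm : ∀ q, m q ≤ mΩ) (hi : iIndep m μ) {s : Finset J} {p : J} (hp : p ∉ s) :
    Indep (m p) (gen m s) μ := by
  have h := indep_iSup_of_disjoint hm hi (S := {p}) (T := (s : Set J)) (by simpa using hp)
  simpa [gen] using h

theorem integral_split (hm : ∀ q, m q ≤ mΩ) (hi : iIndep m μ) {s : Finset J} {p : J} (hp : p ∉ s)
    {f g : Ω → ℂ} (hf : Fn (m p) f) (hg : Fn (gen m s) g) :
    ∫ x, f x * g x ∂μ = (∫ x, f x ∂μ) * ∫ x, g x ∂μ := by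
  have h : IndepFun f g μ :=
    (IndepFun_iff_Indep f g μ).2 (indep_of_indep_of_le_right
      (indep_of_indep_of_le_left (indep_gen hm hi hp) (measurable_iff_comap_le.1 hf.1))
      (measurable_iff_comap_le.1 hg.1))
  exact h.integral_fun_mul_eq_mul_integral (hf.1.mono (hm p) le_rfl).aestronglyMeasurable
    (hg.1.mono (gen_le hm s) le_rfl).aestronglyMeasurable

/-- Products of mean zero functions of the factors in `s`. -/
def Good (μ : Measure[mΩ] Ω) (m : J → MeasurableSpace Ω) (s : Finset J) (F : Ω → ℂ) : Prop :=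
  ∃ φ : J → Ω → ℂ, (∀ q ∈ s, Fn (m q) (φ q) ∧ ∫ x, φ q x ∂μ = 0) ∧ F = fun x => ∏ q ∈ s, φ q x

omit [IsProbabilityMeasure μ] in
theorem Good.fn {s : Finset J} {F : Ω → ℂ} (h : Good μ m s F) : Fn (gen m s) F := by
  obtain ⟨φ, hφ, rfl⟩ := h
  suffices ∀ t ⊆ s, Fn (gen m s) (fun x => ∏ q ∈ t, φ q x) from this s subset_rfl
  intro t ht
  induction t using Finset.induction_on with
  | empty => simpa using (Fn.const (M := gen m s) 1)
  | insert q t hq ih =>
    simp only [Finset.prod_insert hq]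
    exact (((hφ q (ht (Finset.mem_insert_self q t))).1).mono
      (le_gen (ht (Finset.mem_insert_self q t)))).mul (ih fun a ha => ht (Finset.mem_insert_of_mem ha))

omit [IsProbabilityMeasure μ] in
theorem Good.split {s : Finset J} {F : Ω → ℂ} (h : Good μ m s F) {p : J} (hp : p ∈ s) :
    ∃ f R, Fn (m p) f ∧ (∫ x, f x ∂μ = 0) ∧ Good μ m (s.erase p) R ∧ F = fun x => f x * R x := by
  obtain ⟨φ, hφ, rfl⟩ := h
  exact ⟨φ p, _, (hφ p hp).1, (hφ p hp).2,
    ⟨φ, fun q hq => hφ q (Finset.mem_of_mem_erase hq), rfl⟩,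
    funext fun x => (Finset.mul_prod_erase s (fun q => φ q x) hp).symm⟩

theorem Good.cons {s : Finset J} {p : J} (hp : p ∈ s) {f R : Ω → ℂ} (hf : Fn (m p) f)
    (hf0 : ∫ x, f x ∂μ = 0) (hR : Good μ m (s.erase p) R) : Good μ m s (fun x => f x * R x) := by
  obtain ⟨φ, hφ, rfl⟩ := hR
  refine ⟨Function.update φ p f, fun q hq => ?_, funext fun x => ?_⟩
  · by_cases h : q = p
    · subst h; simp [hf, hf0]
    · rw [Function.update_of_ne h]; exact hφ q (Finset.mem_erase.2 ⟨h, hq⟩)
  · rw [← Finset.mul_prod_erase s _ hp, Function.update_self]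
    congr 1
    exact Finset.prod_congr rfl fun q hq => by rw [Function.update_of_ne (Finset.ne_of_mem_erase hq)]

variable {ι : Type*} (S : Sys μ T ι)
variable (hm : ∀ q, m q ≤ mΩ) (hT : ∀ q, Measurable[m q, m q] T) (hi : iIndep m μ)

include hm hT hi S

theorem integral_comp_iter (n : ℕ) {f : Ω → ℂ} {q : J} (hf : Fn (m q) f) :
    ∫ x, f (T^[n] x) ∂μ = ∫ x, f x ∂μ := by
  have h : AEStronglyMeasurable f (μ.map T^[n]) := (hf.1.mono (hm q) le_rfl).aestronglyMeasurable
  have h2 := integral_map (S.mp.iterate n).measurable.aemeasurable h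
  rw [(S.mp.iterate n).map_eq] at h2
  exact h2.symm

theorem inner_good_eq_zero {s t : Finset J} (hst : s ≠ t) {F G : Ω → ℂ} (hF : Good μ m s F)
    (hG : Good μ m t G) (a b : ℕ) : ∫ x, conj (F (T^[a] x)) * G (T^[b] x) ∂μ = 0 := by
  have key : ∀ (s t : Finset J) (F G : Ω → ℂ) (a b : ℕ) (p : J), p ∈ s → p ∉ t →
      Good μ m s F → Good μ m t G → ∫ x, conj (F (T^[a] x)) * G (T^[b] x) ∂μ = 0 := by
    intro s t F G a b p hps hpt hF hG
    obtain ⟨f, R, hf, hf0, hR, rfl⟩ := hF.split hps
    have hsub1 : gen m (s.erase p) ≤ gen m (s.erase p ∪ t) :=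
      iSup₂_le fun q hq => le_gen (Finset.mem_union_left _ hq)
    have hsub2 : gen m t ≤ gen m (s.erase p ∪ t) :=
      iSup₂_le fun q hq => le_gen (Finset.mem_union_right _ hq)
    have h1 : Fn (m p) (fun x => conj (f (T^[a] x))) := (hf.comp ((hT p).iterate a)).conj'
    have h2 : Fn (gen m (s.erase p ∪ t)) (fun x => conj (R (T^[a] x)) * G (T^[b] x)) :=
      ((hR.fn.mono hsub1).comp (measurable_gen hT _ a)).conj'.mul
        ((hG.fn.mono hsub2).comp (measurable_gen hT _ b))
    have hp' : p ∉ s.erase p ∪ t := by simp [hpt]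
    have h3 := integral_split hm hi hp' h1 h2
    rw [integral_conj, integral_comp_iter S hm hT hi a hf, hf0, map_zero, zero_mul] at h3
    simp only [map_mul, mul_assoc]
    exact h3
  by_cases h : ∃ p ∈ s, p ∉ t
  · obtain ⟨p, h1, h2⟩ := h
    exact key s t F G a b p h1 h2 hF hG
  · obtain ⟨p, h1, h2⟩ : ∃ p ∈ t, p ∉ s := by
      by_contra h'
      simp only [not_exists, not_and, not_not] at h h'
      exact hst (Finset.Subset.antisymm h h')
    have h3 := key t s G F b a p h1 h2 hG hF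
    have h4 := congrArg conj h3
    rw [← integral_conj, map_zero] at h4
    simp only [map_mul, Complex.conj_conj] at h4
    simpa only [mul_comm] using h4

theorem corr_mul {s : Finset J} {p : J} (hp : p ∉ s) {f R : Ω → ℂ} (hf : Fn (m p) f)
    (hR : Fn (gen m s) R) (a b : ℕ) :
    ∫ x, conj (f (T^[a] x) * R (T^[a] x)) * (f (T^[b] x) * R (T^[b] x)) ∂μ =
      (∫ x, conj (f (T^[a] x)) * f (T^[b] x) ∂μ) *
        ∫ x, conj (R (T^[a] x)) * R (T^[b] x) ∂μ := by
  rw [← integral_split hm hi hp (((hf.comp ((hT p).iterate a)).conj').mul (hf.comp ((hT p).iterate b)))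
    (((hR.comp (measurable_gen hT _ a)).conj').mul (hR.comp (measurable_gen hT _ b)))]
  congr 1 with x
  simp only [map_mul]; ring

omit [DecidableEq J] hm hi in
theorem inner_iter_eq {F G : Ω → ℂ} (hF : MemLp F 2 μ) (hG : MemLp G 2 μ) (a b : ℕ) :
    ⟪S.U^[a] (hF.toLp F), S.U^[b] (hG.toLp G)⟫_ℂ =
      ∫ x, conj (F (T^[a] x)) * G (T^[b] x) ∂μ := by
  rw [S.iter_toLp, S.iter_toLp, Sys.inner_toLp]; rfl

variable (hne : ∀ q, ∃ s, MeasurableSet[m q] s ∧ μ s ≠ 0 ∧ μ s ≠ 1)
include hne

variable [Fintype ι]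

theorem good_memLp {s : Finset J} {F : Ω → ℂ} (h : Good μ m s F) : MemLp F 2 μ :=
  h.fn.memLp (gen_le hm s) 2

theorem good_mean {s : Finset J} (hs : s.Nonempty) {F : Ω → ℂ} (h : Good μ m s F) :
    ∫ x, F x ∂μ = 0 := by
  obtain ⟨p, hp⟩ := hs
  obtain ⟨f, R, hf, hf0, hR, rfl⟩ := h.split hp
  rw [integral_split hm hi (Finset.notMem_erase p s) hf hR.fn, hf0, zero_mul]

/-- Every finite set of factors has a product of positive norm. -/
theorem exists_good_ne_zero (s : Finset J) :
    ∃ R, Good μ m s R ∧ ∫ x, conj (R x) * R x ∂μ ≠ 0 := by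
  induction s using Finset.induction_on with
  | empty =>
    exact ⟨fun _ => 1, ⟨fun _ _ => 1, fun q hq => absurd hq (Finset.notMem_empty q),
      funext fun x => by simp⟩, by simp⟩
  | insert p s hp ih =>
    obtain ⟨R, hR, hR0⟩ := ih
    obtain ⟨f, hf, hf0, hfp⟩ := S.exists_fn_pos (hm p) (hT p) (hne p) isOpen_univ univ_nonempty
    refine ⟨_, Good.cons (Finset.mem_insert_self p s) hf hf0 (by rwa [Finset.erase_insert hp]), ?_⟩
    have h := corr_mul S hm hT hi hp hf hR.fn 0 0
    simp only [Function.iterate_zero, id] at h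
    rw [h]
    refine mul_ne_zero ?_ hR0
    intro h0
    have hmem := hf.memLp (hm p) (μ := μ) 2
    have hn : ‖hmem.toLp f‖ ^ 2 = 0 := by
      have h1 := Sys.inner_toLp hmem hmem
      rw [h0, inner_self_eq_zero] at h1
      simp [h1]
    have h2 : ⟪one2 μ, hmem.toLp f⟫_ℂ = 0 := by rw [Sys.inner_one, hf0]
    have h3 := S.integral_hd h2
    rw [hn, integral_eq_zero_iff_of_nonneg (S.hd_nonneg _) (S.integrable_hd _)] at h3
    refine (hfp hmem).ne' (measure_mono_null (inter_subset_left) ?_)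
    refine measure_mono_null (fun x hx => ?_) (ae_iff.1 h3)
    exact (show 0 < S.hd (hmem.toLp f) x from hx).ne'

/-- The positivity of the density of one product of factors on an open subset of `V`. -/
theorem exists_good_pos {s : Finset J} (hs : 2 ≤ s.card) {V : Set 𝕋} (hV : IsOpen V)
    (hVne : V.Nonempty) :
    ∃ F, ∃ h : Good μ m s F, ∃ W ⊆ V, IsOpen W ∧ W.Nonempty ∧
      ∀ᵐ x ∂ν, x ∈ W → 0 < S.hd ((good_memLp S hm hT hi hne h).toLp F) x := by
  obtain ⟨p, hp⟩ := Finset.card_pos.1 (show 0 < s.card by omega)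
  have hse : (s.erase p).Nonempty := Finset.card_pos.1 (by rw [Finset.card_erase_of_mem hp]; omega)
  obtain ⟨R, hR, hR0⟩ := exists_good_ne_zero S hm hT hi hne (s.erase p)
  have hRm := good_memLp S hm hT hi hne hR
  have hR1 : ⟪one2 μ, hRm.toLp R⟫_ℂ = 0 := by
    rw [Sys.inner_one, good_mean S hm hT hi hne hse hR]
  have hRpos : 0 < ∫ x, S.hd (hRm.toLp R) x ∂ν := by
    rw [S.integral_hd hR1]
    refine pow_pos (norm_pos_iff.2 fun h => hR0 ?_) 2
    rw [← Sys.inner_toLp hRm hRm, h, inner_zero_left]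
  obtain ⟨A, hA, hAne, hA'⟩ := exists_open_of_product hV hVne (S.measurable_hd (hRm.toLp R))
    (S.integrable_hd _) (S.hd_nonneg _) hRpos
  obtain ⟨f, hf, hf0, hfp⟩ := S.exists_fn_pos (hm p) (hT p) (hne p) hA hAne
  have hfm := hf.memLp (hm p) (μ := μ) 2
  have hF := Good.cons hp hf hf0 hR
  have hFm := good_memLp S hm hT hi hne hF
  refine ⟨_, hF, hA' _ (S.measurable_hd (hfm.toLp f)) (S.integrable_hd _) (S.hd_nonneg _)
    (hfp hfm) (S.hd (hFm.toLp _)) (S.integrable_hd _) fun n => ?_⟩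
  have hf1 : ⟪one2 μ, hfm.toLp f⟫_ℂ = 0 := by rw [Sys.inner_one, hf0]
  have hF1 : ⟪one2 μ, hFm.toLp (fun x => f x * R x)⟫_ℂ = 0 := by
    rw [Sys.inner_one, good_mean S hm hT hi hne ⟨p, hp⟩ hF]
  have hpe := Finset.notMem_erase p s
  rw [S.coeff_hd n hF1, S.coeff_hd n hf1, S.coeff_hd n hR1]
  split_ifs with h
  · have h1 := inner_iter_eq S hT hFm hFm 0 n.natAbs
    have h2 := inner_iter_eq S hT hfm hfm 0 n.natAbs
    have h3 := inner_iter_eq S hT hRm hRm 0 n.natAbs
    simp only [Function.iterate_zero, id] at h1 h2 h3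
    rw [h1, h2, h3]
    exact corr_mul S hm hT hi hpe hf hR.fn 0 n.natAbs
  · have h1 := inner_iter_eq S hT hFm hFm n.natAbs 0
    have h2 := inner_iter_eq S hT hfm hfm n.natAbs 0
    have h3 := inner_iter_eq S hT hRm hRm n.natAbs 0
    simp only [Function.iterate_zero, id] at h1 h2 h3
    rw [h1, h2, h3]
    exact corr_mul S hm hT hi hpe hf hR.fn n.natAbs 0

/-- A common open set for finitely many sets of factors. -/
theorem exists_common_open (A : Finset (Finset J)) (hA : ∀ s ∈ A, 2 ≤ s.card) :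
    ∃ V : Set 𝕋, IsOpen V ∧ V.Nonempty ∧ ∀ s ∈ A, ∃ F, ∃ h : Good μ m s F,
      ∀ᵐ x ∂ν, x ∈ V → 0 < S.hd ((good_memLp S hm hT hi hne h).toLp F) x := by
  classical
  induction A using Finset.induction_on with
  | empty => exact ⟨univ, isOpen_univ, univ_nonempty, by simp⟩
  | insert s A hs ih =>
    obtain ⟨V, hV, hVne, hVA⟩ := ih fun t ht => hA t (Finset.mem_insert_of_mem ht)
    obtain ⟨F, hF, W, hWV, hW, hWne, hWF⟩ :=
      exists_good_pos S hm hT hi hne (hA s (Finset.mem_insert_self s A)) hV hVne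
    refine ⟨W, hW, hWne, fun t ht => ?_⟩
    rcases Finset.mem_insert.1 ht with rfl | ht
    · exact ⟨F, hF, hWF⟩
    · obtain ⟨G, hG, hGV⟩ := hVA t ht
      exact ⟨G, hG, by filter_upwards [hGV] with x hx hxW using hx (hWV hxW)⟩

/-- **At most logarithmically many independent factors.** -/
theorem two_pow_card_le [Fintype J] [Nonempty J] :
    2 ^ Fintype.card J ≤ Fintype.card ι + Fintype.card J := by
  classical
  obtain ⟨p₀⟩ := (inferInstance : Nonempty J)
  let big : Finset (Finset J) := Finset.univ.filter fun s => 2 ≤ s.card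
  obtain ⟨V, hV, hVne, hVA⟩ :=
    exists_common_open S hm hT hi hne big fun s hs => (Finset.mem_filter.1 hs).2
  obtain ⟨f, hf, hf0, hfp⟩ := S.exists_fn_pos (hm p₀) (hT p₀) (hne p₀) hV hVne
  let idx : Finset (Finset J) := insert {p₀} big
  have hgood : Good μ m {p₀} f :=
    ⟨fun _ => f, fun q hq => by
      rw [Finset.mem_singleton] at hq; subst hq; exact ⟨hf, hf0⟩, funext fun x => by simp⟩
  have hchoice : ∀ s : idx, ∃ F, ∃ h : Good μ m s.1 F, ∀ᵐ x ∂ν,
      x ∈ V ∩ {x | 0 < S.hd ((hf.memLp (hm p₀) 2).toLp f) x} →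
        0 < S.hd ((good_memLp S hm hT hi hne h).toLp F) x := by
    rintro ⟨s, hs⟩
    rcases Finset.mem_insert.1 hs with rfl | hs
    · exact ⟨f, hgood, Eventually.of_forall fun x hx => hx.2⟩
    · obtain ⟨F, hF, h⟩ := hVA s hs
      exact ⟨F, hF, by filter_upwards [h] with x hx hx' using hx hx'.1⟩
  choose F hF hpos using hchoice
  have horth : ∀ s t : idx, s ≠ t →
      S.dens ((good_memLp S hm hT hi hne (hF s)).toLp (F s))
        ((good_memLp S hm hT hi hne (hF t)).toLp (F t)) =ᵐ[ν] 0 := by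
    intro s t hst
    have hne' : (s.1 : Finset J).Nonempty := by
      rcases Finset.mem_insert.1 s.2 with h | h
      · rw [h]; exact Finset.singleton_nonempty p₀
      · exact Finset.card_pos.1 (by have := (Finset.mem_filter.1 h).2; omega)
    have hst' : (s.1 : Finset J) ≠ t.1 := fun h => hst (Subtype.ext h)
    refine S.dens_eq_zero (by rw [Sys.inner_one, good_mean S hm hT hi hne hne' (hF s)]) ?_ ?_
    · intro n
      have h := inner_iter_eq S hT (good_memLp S hm hT hi hne (hF s))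
        (good_memLp S hm hT hi hne (hF t)) 0 n
      simp only [Function.iterate_zero, id] at h
      rw [h]
      exact inner_good_eq_zero S hm hT hi hst' (hF s) (hF t) 0 n
    · intro n
      have h := inner_iter_eq S hT (good_memLp S hm hT hi hne (hF s))
        (good_memLp S hm hT hi hne (hF t)) n 0
      simp only [Function.iterate_zero, id] at h
      rw [h]
      exact inner_good_eq_zero S hm hT hi hst' (hF s) (hF t) n 0
  have hall : ∀ᵐ x ∂ν, (∀ s : idx, x ∈ V ∩ {x | 0 < S.hd ((hf.memLp (hm p₀) 2).toLp f) x} →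
      0 < S.hd ((good_memLp S hm hT hi hne (hF s)).toLp (F s)) x) ∧
      ∀ s t : idx, s ≠ t → S.dens ((good_memLp S hm hT hi hne (hF s)).toLp (F s))
        ((good_memLp S hm hT hi hne (hF t)).toLp (F t)) x = 0 := by
    refine (ae_all_iff.2 hpos).and (ae_all_iff.2 fun s => ae_all_iff.2 fun t => ?_)
    by_cases h : s = t
    · exact Eventually.of_forall fun x h' => absurd h h'
    · filter_upwards [horth s t h] with x hx _ using hx
  obtain ⟨x, hxV, hx⟩ : ∃ x ∈ V ∩ {x | 0 < S.hd ((hf.memLp (hm p₀) 2).toLp f) x}, _ := by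
    refine Frequently.exists ((frequently_ae_mem_iff.2 ?_).and_eventually hall)
    rw [inter_comm]; exact (hfp _).ne'
  obtain ⟨hx1, hx2⟩ := hx
  let v : idx → EuclideanSpace ℂ ι := fun s =>
    WithLp.toLp 2 fun i => S.Φ i ((good_memLp S hm hT hi hne (hF s)).toLp (F s)) x
  have hli : LinearIndependent ℂ v := by
    refine linearIndependent_of_ne_zero_of_inner_eq_zero (fun s h => ?_) (fun s t hst => ?_)
    · have := hx1 s hxV
      have h' : ∀ i, S.Φ i ((good_memLp S hm hT hi hne (hF s)).toLp (F s)) x = 0 := fun i =>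
        congrArg (fun u : EuclideanSpace ℂ ι => u i) h
      simp [Sys.hd, h'] at this
    · show ⟪v s, v t⟫_ℂ = 0
      rw [← hx2 s t hst, PiLp.inner_apply]; rfl
  have hcard := hli.fintype_card_le_finrank
  rw [finrank_euclideanSpace, Fintype.card_coe] at hcard
  have hidx : idx.card = big.card + 1 :=
    Finset.card_insert_of_notMem (by simp [big])
  have hsmall : (Finset.univ.filter fun s : Finset J => ¬ 2 ≤ s.card).card ≤ Fintype.card J + 1 := by
    refine (Finset.card_le_card (t := insert ∅ (Finset.univ.image fun q : J => ({q} : Finset J)))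
      fun s hs => ?_).trans ((Finset.card_insert_le _ _).trans
        (Nat.add_le_add_right Finset.card_image_le 1))
    have hs' := (Finset.mem_filter.1 hs).2
    rcases Nat.eq_zero_or_pos s.card with h | h
    · exact Finset.mem_insert.2 (Or.inl (Finset.card_eq_zero.1 h))
    · obtain ⟨q, rfl⟩ := Finset.card_eq_one.1 (show s.card = 1 by omega)
      exact Finset.mem_insert_of_mem (Finset.mem_image_of_mem _ (Finset.mem_univ q))
  have htot := Finset.card_filter_add_card_filter_not
    (s := (Finset.univ : Finset (Finset J))) (fun s => 2 ≤ s.card)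
  simp only [Finset.card_univ, Fintype.card_finset] at htot
  change idx.card ≤ _ at hcard
  have : big.card = (Finset.univ.filter fun s : Finset J => 2 ≤ s.card).card := rfl
  omega

end

end Vale.Agent.P130
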