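import Vale.Agent.P130.Circle

/-!
# Spectral densities of a transformation whose orbits give an orthonormal basis
-/

namespace Vale.Agent.P130

open MeasureTheory Filter Set
open scoped Topology ENNReal ComplexConjugate InnerProductSpace

noncomputable section

variable {Ω : Type*} [MeasurableSpace Ω] (μ : Measure Ω) [IsProbabilityMeasure μ] (T : Ω → Ω)

/-- The constant function one in `L²`. -/
def one2 : Lp ℂ 2 μ := (memLp_const (1 : ℂ)).toLp _

/-- An orthonormal basis of `L²` formed by `1` and the orbits of finitely many vectors. -/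
structure Sys (ι : Type*) where
  mp : MeasurePreserving T μ μ
  b : HilbertBasis (Option (ι × ℤ)) ℂ (Lp ℂ 2 μ)
  b0 : b none = one2 μ
  shift : ∀ i n, Lp.compMeasurePreserving T mp (b (some (i, n))) = b (some (i, n + 1))

variable {μ T} {ι : Type*} (S : Sys μ T ι)

namespace Sys

/-- The Koopman isometry. -/
def U : Lp ℂ 2 μ →ₗᵢ[ℂ] Lp ℂ 2 μ := Lp.compMeasurePreservingₗᵢ ℂ T S.mp

theorem U_b (i : ι) (n : ℤ) : S.U (S.b (some (i, n))) = S.b (some (i, n + 1)) := S.shift i n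

theorem U_one : S.U (one2 μ) = one2 μ := by
  show Lp.compMeasurePreserving T S.mp ((memLp_const (1 : ℂ)).toLp _) = _
  rw [Lp.toLp_compMeasurePreserving]; rfl

theorem iter_one (n : ℕ) : S.U^[n] (one2 μ) = one2 μ :=
  Function.iterate_fixed S.U_one n

theorem inner_iter (n : ℕ) (f g : Lp ℂ 2 μ) : ⟪S.U^[n] f, S.U^[n] g⟫_ℂ = ⟪f, g⟫_ℂ := by
  induction n with
  | zero => rfl
  | succ n ih => simp only [Function.iterate_succ_apply', LinearIsometry.inner_map_map, ih]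

theorem iter_b (i : ι) (n : ℕ) (m : ℤ) :
    S.U^[n] (S.b (some (i, m))) = S.b (some (i, m + n)) := by
  induction n with
  | zero => simp
  | succ n ih => rw [Function.iterate_succ_apply', ih, U_b]; push_cast; ring_nf

theorem inner_one_iter (n : ℕ) (f : Lp ℂ 2 μ) :
    ⟪one2 μ, S.U^[n] f⟫_ℂ = ⟪one2 μ, f⟫_ℂ := by
  conv_lhs => rw [← S.iter_one n]
  exact S.inner_iter n _ _

theorem memℓp_coeff (i : ι) (f : Lp ℂ 2 μ) :
    Memℓp (fun n : ℤ => (S.b.repr f : Option (ι × ℤ) → ℂ) (some (i, n))) 2 := by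
  have h : Memℓp (S.b.repr f : Option (ι × ℤ) → ℂ) 2 := (S.b.repr f).2
  rw [memℓp_gen_iff (by norm_num)] at h ⊢
  exact h.comp_injective (i := fun n : ℤ => some (i, n)) fun a b h => by simpa using h

/-- The component `i` of the spectral representation. -/
def Φ (i : ι) : Lp ℂ 2 μ →ₗ[ℂ] Lp ℂ 2 ν where
  toFun f := fourierBasis.repr.symm
    (⟨fun n => (S.b.repr f : Option (ι × ℤ) → ℂ) (some (i, n)), S.memℓp_coeff i f⟩ : ↥(lp (fun _ : ℤ => ℂ) 2))
  map_add' f g := by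
    rw [← map_add]; congr 1; ext n; simp; rfl
  map_smul' c f := by
    rw [RingHom.id_apply, ← map_smul]; congr 1; ext n; simp

theorem coeff_Φ (i : ι) (f : Lp ℂ 2 μ) (n : ℤ) :
    ⟪fourierLp (T := (1 : ℝ)) 2 n, S.Φ i f⟫_ℂ = ⟪S.b (some (i, n)), f⟫_ℂ := by
  rw [← HilbertBasis.repr_apply_apply S.b, ← coe_fourierBasis,
    ← HilbertBasis.repr_apply_apply fourierBasis, Φ, LinearMap.coe_mk, AddHom.coe_mk,
    LinearIsometryEquiv.apply_symm_apply]

theorem Φ_one (i : ι) : S.Φ i (one2 μ) = 0 := by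
  refine fourierBasis.repr.injective (lp.ext (funext fun n => ?_))
  rw [map_zero, HilbertBasis.repr_apply_apply, coe_fourierBasis, coeff_Φ, ← S.b0,
    S.b.orthonormal.2 (by simp)]
  rfl

theorem ae_Φ_U (i : ι) (f : Lp ℂ 2 μ) :
    (S.Φ i (S.U f) : 𝕋 → ℂ) =ᵐ[ν] fun x => e 1 x * S.Φ i f x := by
  have hmem : MemLp (fun x => e 1 x * S.Φ i f x) 2 ν :=
    (Lp.memLp (S.Φ i f)).of_le ((e 1).continuous.aestronglyMeasurable.mul (Lp.aestronglyMeasurable _))
      (Eventually.of_forall fun x => by rw [norm_mul, norm_e, one_mul])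
  suffices S.Φ i (S.U f) = hmem.toLp _ by rw [this]; exact hmem.coeFn_toLp
  refine fourierBasis.repr.injective (lp.ext (funext fun n => ?_))
  rw [HilbertBasis.repr_apply_apply, HilbertBasis.repr_apply_apply, coe_fourierBasis, coeff_Φ]
  have hb : S.b (some (i, n)) = S.U (S.b (some (i, n - 1))) := by rw [U_b, sub_add_cancel]
  rw [hb, LinearIsometry.inner_map_map, ← coeff_Φ, L2.inner_def, L2.inner_def]
  refine integral_congr_ae ?_
  filter_upwards [coeFn_fourierLp (T := (1 : ℝ)) 2 (n - 1), coeFn_fourierLp (T := (1 : ℝ)) 2 n,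
    hmem.coeFn_toLp] with x h1 h2 h3
  rw [h1, h2, h3]
  simp only [RCLike.inner_apply, ← fourier_neg]
  rw [show -(n - 1) = -n + 1 by ring, fourier_add]
  ring

theorem ae_Φ_iter (i : ι) (f : Lp ℂ 2 μ) (n : ℕ) :
    (S.Φ i (S.U^[n] f) : 𝕋 → ℂ) =ᵐ[ν] fun x => e n x * S.Φ i f x := by
  induction n with
  | zero => exact Eventually.of_forall fun x => by simp
  | succ n ih =>
    rw [Function.iterate_succ_apply']
    filter_upwards [S.ae_Φ_U i (S.U^[n] f), ih] with x h1 h2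
    rw [h1, h2, ← mul_assoc, ← fourier_add, add_comm]
    push_cast; rfl

variable [Fintype ι]

/-- The cross density. -/
def dens (f g : Lp ℂ 2 μ) (x : 𝕋) : ℂ := ∑ i, ⟪S.Φ i f x, S.Φ i g x⟫_ℂ

/-- The spectral density. -/
def hd (f : Lp ℂ 2 μ) (x : 𝕋) : ℝ := ∑ i, ‖S.Φ i f x‖ ^ 2

theorem integrable_dens (f g : Lp ℂ 2 μ) : Integrable (S.dens f g) ν :=
  integrable_finsetSum _ fun i _ => L2.integrable_inner (S.Φ i f) (S.Φ i g)

theorem dens_self (f : Lp ℂ 2 μ) (x : 𝕋) : S.dens f f x = (S.hd f x : ℂ) := by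
  simp only [dens, hd, Complex.ofReal_sum]
  exact Finset.sum_congr rfl fun i _ => by rw [inner_self_eq_norm_sq_to_K]; simp

theorem hd_nonneg (f : Lp ℂ 2 μ) (x : 𝕋) : 0 ≤ S.hd f x := Finset.sum_nonneg fun _ _ => sq_nonneg _

theorem measurable_hd (f : Lp ℂ 2 μ) : Measurable (S.hd f) :=
  Finset.measurable_sum _ fun i _ => ((Lp.stronglyMeasurable (S.Φ i f)).measurable.norm.pow_const 2)

theorem integrable_hd (f : Lp ℂ 2 μ) : Integrable (S.hd f) ν :=
  (S.integrable_dens f f).re.congr (Eventually.of_forall fun x => by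
    simp [dens_self, RCLike.re_to_complex])

theorem integral_dens {f : Lp ℂ 2 μ} (hf : ⟪one2 μ, f⟫_ℂ = 0) (g : Lp ℂ 2 μ) :
    ∫ x, S.dens f g x ∂ν = ⟪f, g⟫_ℂ := by
  have hs := S.b.summable_inner_mul_inner f g
  have h0 : ⟪f, S.b none⟫_ℂ = 0 := by rw [S.b0, inner_eq_zero_symm, hf]
  have hs' : Summable fun p : ι × ℤ => ⟪f, S.b (some p)⟫_ℂ * ⟪S.b (some p), g⟫_ℂ :=
    hs.comp_injective (Option.some_injective _)
  have ht : ⟪f, g⟫_ℂ = ∑' p : ι × ℤ, ⟪f, S.b (some p)⟫_ℂ * ⟪S.b (some p), g⟫_ℂ := by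
    rw [← S.b.tsum_inner_mul_inner f g]
    refine ((Option.some_injective _).tsum_eq fun o ho => ?_).symm
    cases o with
    | none => exact absurd (by simp [h0]) ho
    | some p => exact ⟨p, rfl⟩
  rw [ht, hs'.tsum_prod, tsum_fintype]
  unfold dens
  rw [integral_finsetSum _ fun i _ => L2.integrable_inner (S.Φ i f) (S.Φ i g)]
  refine Finset.sum_congr rfl fun i _ => ?_
  rw [← L2.inner_def, ← fourierBasis.tsum_inner_mul_inner (S.Φ i f) (S.Φ i g)]
  refine tsum_congr fun n => ?_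
  rw [coe_fourierBasis, coeff_Φ, ← inner_conj_symm (S.Φ i f), coeff_Φ, inner_conj_symm]

theorem integral_e_dens (n : ℕ) {f g : Lp ℂ 2 μ} (hf : ⟪one2 μ, f⟫_ℂ = 0) :
    ∫ x, e n x * S.dens f g x ∂ν = ⟪f, S.U^[n] g⟫_ℂ := by
  rw [← S.integral_dens hf]
  refine integral_congr_ae ?_
  filter_upwards [ae_all_iff.2 fun i => S.ae_Φ_iter i g n] with x hx
  simp only [dens, Finset.mul_sum]
  refine Finset.sum_congr rfl fun i _ => ?_
  rw [hx i]; simp only [RCLike.inner_apply]; ring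

theorem integral_e_neg_dens (n : ℕ) {f g : Lp ℂ 2 μ} (hf : ⟪one2 μ, f⟫_ℂ = 0) :
    ∫ x, e (-(n : ℤ)) x * S.dens f g x ∂ν = ⟪S.U^[n] f, g⟫_ℂ := by
  rw [← S.integral_dens (f := S.U^[n] f) (by rw [inner_one_iter, hf])]
  refine integral_congr_ae ?_
  filter_upwards [ae_all_iff.2 fun i => S.ae_Φ_iter i f n] with x hx
  simp only [dens, Finset.mul_sum]
  refine Finset.sum_congr rfl fun i _ => ?_
  rw [hx i]; simp only [RCLike.inner_apply, map_mul, ← fourier_neg]; ring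

theorem integral_hd {f : Lp ℂ 2 μ} (hf : ⟪one2 μ, f⟫_ℂ = 0) : ∫ x, S.hd f x ∂ν = ‖f‖ ^ 2 := by
  have h := S.integral_dens hf f
  simp only [dens_self, integral_complex_ofReal, inner_self_eq_norm_sq_to_K] at h
  exact Complex.ofReal_injective (by simpa using h)

/-- Vectors with orthogonal orbits have pointwise orthogonal representations. -/
theorem dens_eq_zero {f g : Lp ℂ 2 μ} (hf : ⟪one2 μ, f⟫_ℂ = 0)
    (h₁ : ∀ n : ℕ, ⟪f, S.U^[n] g⟫_ℂ = 0) (h₂ : ∀ n : ℕ, ⟪S.U^[n] f, g⟫_ℂ = 0) :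
    S.dens f g =ᵐ[ν] 0 := by
  refine eq_zero_of_fourier (S.integrable_dens f g) fun n => ?_
  obtain ⟨m, rfl | rfl⟩ := n.eq_nat_or_neg
  · rw [S.integral_e_dens m hf, h₁ m]
  · rw [S.integral_e_neg_dens m hf, h₂ m]

/-- The Fourier coefficients of a spectral density. -/
theorem coeff_hd (n : ℤ) {f : Lp ℂ 2 μ} (hf : ⟪one2 μ, f⟫_ℂ = 0) :
    ∫ x, e n x * (S.hd f x : ℂ) ∂ν =
      if 0 ≤ n then ⟪f, S.U^[n.natAbs] f⟫_ℂ else ⟪S.U^[n.natAbs] f, f⟫_ℂ := by
  simp only [← dens_self]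
  split_ifs with h
  · conv_lhs => rw [← Int.natAbs_of_nonneg h]
    exact S.integral_e_dens _ hf
  · conv_lhs => rw [show n = -(n.natAbs : ℤ) by omega]
    exact S.integral_e_neg_dens _ hf

omit [Fintype ι] in
theorem tendsto_corr (f : Lp ℂ 2 μ) {g : Lp ℂ 2 μ} (hg : ⟪one2 μ, g⟫_ℂ = 0) :
    Tendsto (fun n : ℕ => ⟪S.U^[n] f, g⟫_ℂ) atTop (𝓝 0) := by
  have hb : ∀ o, Tendsto (fun n : ℕ => ⟪S.U^[n] (S.b o), g⟫_ℂ) atTop (𝓝 0) := by
    intro o
    cases o with
    | none => rw [S.b0]; simp [S.iter_one, hg]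
    | some p =>
      obtain ⟨i, m⟩ := p
      have h2 : Memℓp (S.b.repr g : Option (ι × ℤ) → ℂ) 2 := (S.b.repr g).2
      rw [memℓp_gen_iff (by norm_num)] at h2
      have h3 := (h2.comp_injective (i := fun n : ℕ => some (i, m + (n : ℤ)))
        fun a b h => by simpa using h).tendsto_atTop_zero
      refine tendsto_zero_iff_norm_tendsto_zero.2 ?_
      have h4 := (Real.continuous_sqrt.tendsto _).comp h3
      simp only [Real.sqrt_zero] at h4
      refine h4.congr fun n => ?_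
      simp only [Function.comp_apply, HilbertBasis.repr_apply_apply, iter_b]
      simp [Real.sqrt_sq (norm_nonneg _)]
  have hspan : ∀ f ∈ Submodule.span ℂ (range S.b),
      Tendsto (fun n : ℕ => ⟪S.U^[n] f, g⟫_ℂ) atTop (𝓝 0) := by
    have hlin : ∀ n : ℕ, ∀ x y : Lp ℂ 2 μ, ∀ c : ℂ,
        S.U^[n] (x + c • y) = S.U^[n] x + c • S.U^[n] y := by
      intro n
      induction n with
      | zero => simp
      | succ n ih => intro x y c; simp [Function.iterate_succ_apply', ih]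
    intro f hf
    induction hf using Submodule.span_induction with
    | mem x hx => obtain ⟨o, rfl⟩ := hx; exact hb o
    | zero => simp [Function.iterate_fixed (map_zero S.U)]
    | add x y _ _ hx hy =>
      have h1 : ∀ n : ℕ, S.U^[n] (x + y) = S.U^[n] x + S.U^[n] y := fun n => by
        simp [← hlin n x y 1]
      simpa [h1, inner_add_left] using hx.add hy
    | smul c x _ hx =>
      have h1 : ∀ n : ℕ, S.U^[n] (c • x) = c • S.U^[n] x := fun n => by
        simpa [Function.iterate_fixed (map_zero S.U)] using hlin n 0 x c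
      simpa [h1, inner_smul_left] using hx.const_mul (conj c)
  refine Metric.tendsto_atTop.2 fun ε hε => ?_
  obtain ⟨f', hf', hd'⟩ := Metric.mem_closure_iff.1 (show f ∈ closure (Submodule.span ℂ (range S.b) : Set _) by
    rw [← Submodule.topologicalClosure_coe, S.b.dense_span]; trivial) (ε / (2 * (‖g‖ + 1))) (by positivity)
  obtain ⟨N, hN⟩ := Metric.tendsto_atTop.1 (hspan f' hf') (ε / 2) (half_pos hε)
  refine ⟨N, fun n hn => ?_⟩
  have h1 : ‖⟪S.U^[n] f, g⟫_ℂ - ⟪S.U^[n] f', g⟫_ℂ‖ ≤ dist f f' * ‖g‖ := by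
    rw [← inner_sub_left]
    refine (norm_inner_le_norm _ _).trans_eq ?_
    rw [← dist_eq_norm]
    congr 1
    clear hn
    induction n with
    | zero => rfl
    | succ n ih => rw [Function.iterate_succ_apply', Function.iterate_succ_apply', S.U.isometry.dist_eq, ih]
  have h2 : dist f f' * ‖g‖ ≤ ε / (2 * (‖g‖ + 1)) * (‖g‖ + 1) := by
    gcongr; linarith
  have h3 : ε / (2 * (‖g‖ + 1)) * (‖g‖ + 1) = ε / 2 := by
    field_simp
  have h4 := hN n hn
  rw [dist_zero_right] at h4 ⊢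
  calc ‖⟪S.U^[n] f, g⟫_ℂ‖ ≤ ‖⟪S.U^[n] f, g⟫_ℂ - ⟪S.U^[n] f', g⟫_ℂ‖ + ‖⟪S.U^[n] f', g⟫_ℂ‖ :=
        norm_le_norm_sub_add _ _
    _ < ε := by linarith

/-- The spectral form of an approximate eigenvector. -/
theorem sq_mul_integral_le {f : Lp ℂ 2 μ} (hf : ⟪one2 μ, f⟫_ℂ = 0) (z : ℂ) {c : ℝ} {V : Set 𝕋}
    (hc : 0 ≤ c) (hfar : ∀ x, x ∉ V → c ≤ ‖e 1 x - z‖)
    (hzero : ∀ᵐ x ∂ν, x ∈ V → S.hd f x = 0) :
    c ^ 2 * ‖f‖ ^ 2 ≤ ‖S.U f - z • f‖ ^ 2 := by
  have h1 : ⟪one2 μ, S.U f - z • f⟫_ℂ = 0 := by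
    rw [inner_sub_right, inner_smul_right, hf]
    have := S.inner_one_iter 1 f
    simp only [Function.iterate_one] at this
    rw [this, hf]; ring
  rw [← S.integral_hd hf, ← S.integral_hd h1, ← integral_const_mul]
  refine integral_mono_ae ((S.integrable_hd f).const_mul _) (S.integrable_hd _) ?_
  have hΦ : ∀ i, (S.Φ i (S.U f - z • f) : 𝕋 → ℂ) =ᵐ[ν] fun x => (e 1 x - z) * S.Φ i f x := by
    intro i
    rw [map_sub, map_smul]
    filter_upwards [Lp.coeFn_sub (S.Φ i (S.U f)) (z • S.Φ i f), Lp.coeFn_smul z (S.Φ i f),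
      S.ae_Φ_U i f] with x a b d
    rw [a, Pi.sub_apply, b, Pi.smul_apply, d, smul_eq_mul]; ring
  filter_upwards [hzero, ae_all_iff.2 hΦ] with x hx hΦx
  by_cases hV : x ∈ V
  · rw [hx hV, mul_zero]; exact S.hd_nonneg _ _
  · simp only [hd, Finset.mul_sum]
    refine Finset.sum_le_sum fun i _ => ?_
    rw [hΦx i, norm_mul, mul_pow]
    gcongr
    exact hfar x hV

end Sys

end

end Vale.Agent.P130
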