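import Mathlib

/-!
# Lebesgue spectrum of finite multiplicity
-/

namespace Vale.Agent.P130

open MeasureTheory

/-- The constant `1` and the two-sided Koopman orbits of `k` vectors form an orthonormal basis of
`L²`: Lebesgue spectrum of multiplicity `k` on the mean-zero functions. -/
def HasLebesgueSpectrum {Ω : Type} [MeasurableSpace Ω] (μ : Measure Ω) [IsProbabilityMeasure μ]
    (T : Ω → Ω) (k : ℕ) : Prop :=
  ∃ (hT : MeasurePreserving T μ μ) (b : HilbertBasis (Option (Fin k × ℤ)) ℂ (Lp ℂ 2 μ)),
    b none = (memLp_const (1 : ℂ)).toLp _ ∧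
      ∀ i n, Lp.compMeasurePreserving T hT (b (some (i, n))) = b (some (i, n + 1))

end Vale.Agent.P130
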